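import Vale.Agent.P011N.Cl.K.Glob
import Vale.Agent.P011.H321.SplitP

/-!
The choice of the quadratic and of the cubic extension.
-/

open Module Polynomial NumberField IsDedekindDomain

namespace Vale.Agent.P011N.Cl.K

open Vale.Agent.P011.Arith (Pl plAbv plAbv_lt plAbv_inr approx exists_below val_lt_val_iff)

variable {k L : Type} [Field k] [NumberField k] [Field L] [NumberField L] [Algebra k L]
  {v : HeightOneSpectrum (𝓞 k)} {w : HeightOneSpectrum (𝓞 L)}

theorem noroot_up (hw : w.asIdeal.comap (algebraMap (𝓞 k) (𝓞 L)) = v.asIdeal) {P : (𝓞 k)[X]}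
    (hP : P.Monic) {l : ℕ} (hPl : P.natDegree = l) (hl1 : 1 ≤ l) (hl3 : l ≤ 3)
    (hno : ∀ z : 𝓞 k, P.eval z ∉ v.asIdeal) (hf : ¬ l ∣ v.asIdeal.inertiaDeg' w.asIdeal)
    (y : 𝓞 L) : aeval y P ∉ w.asIdeal := by
  intro hy
  have : w.asIdeal.LiesOver v.asIdeal := ⟨hw.symm⟩
  have hm := v.isMaximal
  have hmw := w.isMaximal
  let _ : Field (𝓞 k ⧸ v.asIdeal) := Ideal.Quotient.field _
  let _ : Field (𝓞 L ⧸ w.asIdeal) := Ideal.Quotient.field _
  have : Finite (𝓞 L ⧸ w.asIdeal) := Ideal.finiteQuotientOfFreeOfNeBot _ w.ne_bot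
  have : FiniteDimensional (𝓞 k ⧸ v.asIdeal) (𝓞 L ⧸ w.asIdeal) := Module.Finite.of_finite
  let q : (𝓞 k ⧸ v.asIdeal)[X] := P.map (Ideal.Quotient.mk _)
  have hqm : q.Monic := hP.map _
  have hql : q.natDegree = l := by rw [hP.natDegree_map, hPl]
  have hirr : Irreducible q := by
    refine irreducible_of_degree_le_three_of_not_isRoot ?_ ?_
    · rw [hql, Finset.mem_Icc]
      exact ⟨hl1, hl3⟩
    · intro c hc
      obtain ⟨x, rfl⟩ := Ideal.Quotient.mk_surjective c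
      rw [IsRoot, eval_map, eval₂_hom, Ideal.Quotient.eq_zero_iff_mem] at hc
      exact hno x hc
  have hr : aeval (Ideal.Quotient.mk w.asIdeal y) q = 0 := by
    rw [← Ideal.Quotient.eq_zero_iff_mem, aeval_def, hom_eval₂] at hy
    rw [aeval_def, eval₂_map]
    exact hy
  have hmin := minpoly.eq_of_irreducible_of_monic hirr hr hqm
  apply hf
  rw [Ideal.inertiaDeg'_algebraMap, ← hql, hmin]
  exact minpoly.degree_dvd (IsIntegral.of_finite _ _)

theorem irrV_of (hw : w.asIdeal.comap (algebraMap (𝓞 k) (𝓞 L)) = v.asIdeal) {P Q : (𝓞 k)[X]}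
    (hP : P.Monic) {l : ℕ} (hPl : P.natDegree = l) (hQ : Q.natDegree < l) (hl3 : l ≤ 3)
    (hno : ∀ z : 𝓞 k, P.eval z ∉ v.asIdeal) (hf : ¬ l ∣ v.asIdeal.inertiaDeg' w.asIdeal)
    {τ : k} (hτ : v.valuation k τ < 1) :
    IrrV w l (P.map (algebraMap (𝓞 k) L) - C (algebraMap k L τ) * Q.map (algebraMap (𝓞 k) L)) := by
  have h1 : (P.map (algebraMap (𝓞 k) L)).natDegree = l := by rw [hP.natDegree_map, hPl]
  have h2 : (C (algebraMap k L τ) * Q.map (algebraMap (𝓞 k) L)).natDegree <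
      (P.map (algebraMap (𝓞 k) L)).natDegree := by
    rw [h1]
    exact ((natDegree_C_mul_le _ _).trans natDegree_map_le).trans_lt hQ
  have h3 : w.valuation L (algebraMap k L τ) < 1 := by
    have h4 := (val_lt_val_iff hw τ 1).mpr (by rwa [map_one])
    rwa [map_one, map_one] at h4
  have h4 : ∀ x : 𝓞 L, w.valuation L (algebraMap k L τ * algebraMap (𝓞 L) L x) < 1 := fun x => by
    rw [map_mul]
    exact lt_of_le_of_lt (mul_le_of_le_one_right' (w.valuation_le_one x)) h3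
  refine ⟨(hP.map _).sub_of_left (degree_lt_degree h2),
    (natDegree_sub_eq_left_of_natDegree_lt h2).trans h1, Or.inl ⟨fun i => ?_, fun x hx => ?_⟩⟩
  · rw [coeff_sub, coeff_C_mul, coeff_map, coeff_map, IsScalarTower.algebraMap_apply (𝓞 k) (𝓞 L) L,
      IsScalarTower.algebraMap_apply (𝓞 k) (𝓞 L) L]
    exact Valuation.map_sub_le _ (w.valuation_le_one _) (h4 _).le
  · apply noroot_up hw hP hPl (by omega) hl3 hno hf x
    rw [eval_sub, eval_mul, eval_C, eval_map_algebraMap, eval_map_algebraMap] at hx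
    have h5 : ∀ R : (𝓞 k)[X], aeval (x : L) R = algebraMap (𝓞 L) L (aeval x R) := fun R =>
      aeval_algebraMap_apply L x R
    rw [h5, h5] at hx
    rw [← w.valuation_lt_one_iff_mem (K := L)]
    have h6 := Valuation.map_add_lt _ hx (h4 (aeval x Q))
    rwa [sub_add_cancel] at h6

/-- The simplest cubic polynomials. -/
noncomputable def shk {R : Type} [CommRing R] (t : R) : R[X] :=
  X ^ 3 - C t * X ^ 2 - C (t + 3) * X - 1

theorem aeval_shk {R S : Type} [CommRing R] [CommRing S] [Algebra R S] (t : R) (x : S) :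
    aeval x (shk t) = x ^ 3 - algebraMap R S t * x ^ 2 - (algebraMap R S t + 3) * x - 1 := by
  simp [shk, map_ofNat]

theorem exists_not_range {κ : Type} [Field κ] [Finite κ] (g : κ → κ) (h : g 0 = g (-1)) :
    ∃ t, ∀ x, g x ≠ t := by
  by_contra hcon
  push Not at hcon
  have h1 := Finite.injective_iff_surjective.mpr hcon h
  exact one_ne_zero (neg_eq_zero.mp h1.symm)

theorem exists_cub (v : HeightOneSpectrum (𝓞 k)) : ∃ t₀ : 𝓞 k, ∀ (L : Type) [Field L]
    [NumberField L] [Algebra k L] (w : HeightOneSpectrum (𝓞 L)),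
    w.asIdeal.comap (algebraMap (𝓞 k) (𝓞 L)) = v.asIdeal → ¬ 3 ∣ v.asIdeal.inertiaDeg' w.asIdeal →
    ∀ t : k, v.valuation k (t - t₀) < 1 → IrrV w 3 (shk (algebraMap k L t)) := by
  have hm := v.isMaximal
  let _ : Field (𝓞 k ⧸ v.asIdeal) := Ideal.Quotient.field _
  have : Finite (𝓞 k ⧸ v.asIdeal) := Ideal.finiteQuotientOfFreeOfNeBot _ v.ne_bot
  obtain ⟨t, ht⟩ := exists_not_range
    (fun x : 𝓞 k ⧸ v.asIdeal => (x ^ 3 - 3 * x - 1) / (x ^ 2 + x)) (by simp)
  obtain ⟨t₀, rfl⟩ := Ideal.Quotient.mk_surjective t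
  refine ⟨t₀, fun L _ _ _ w hw hf t ht' => ?_⟩
  have h1 := irrV_of hw (P := shk t₀) (Q := X ^ 2 + X) (l := 3) (by unfold shk; monicity!)
    (by unfold shk; compute_degree!) (by compute_degree!) le_rfl (fun z hz => by
      rw [← Ideal.Quotient.eq_zero_iff_mem, ← coe_aeval_eq_eval, aeval_shk] at hz
      simp only [map_sub, map_mul, map_pow, map_add, map_one, map_ofNat,
        Algebra.algebraMap_self, RingHom.id_apply] at hz
      generalize Ideal.Quotient.mk v.asIdeal z = x at hz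
      by_cases h0 : x ^ 2 + x = 0
      · have h2 : x * (x + 1) = 0 := by linear_combination h0
        rcases mul_eq_zero.mp h2 with h3 | h3
        · rw [h3] at hz
          simp at hz
        · rw [eq_neg_of_add_eq_zero_left h3] at hz
          exact one_ne_zero (by linear_combination hz)
      · apply ht x
        rw [div_eq_iff h0]
        linear_combination hz) hf ht'
  convert h1 using 1
  have h2 : algebraMap k L (t₀ : k) = algebraMap (𝓞 k) L t₀ :=
    (IsScalarTower.algebraMap_apply (𝓞 k) k L t₀).symm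
  simp only [shk, Polynomial.map_sub, Polynomial.map_mul, Polynomial.map_pow, Polynomial.map_add,
    map_X, map_C, Polynomial.map_one, map_sub, map_add, h2, map_ofNat, Polynomial.map_ofNat]
  ring

theorem exists_quad (v : HeightOneSpectrum (𝓞 k)) : ∃ u₀ : 𝓞 k, ∀ (L : Type) [Field L]
    [NumberField L] [Algebra k L] (w : HeightOneSpectrum (𝓞 L)),
    w.asIdeal.comap (algebraMap (𝓞 k) (𝓞 L)) = v.asIdeal → ¬ 2 ∣ v.asIdeal.inertiaDeg' w.asIdeal →
    ∀ a : k, v.valuation k (a - (1 + 4 * u₀)) < v.valuation k 4 →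
      IrrV w 2 (X ^ 2 + X - C (algebraMap k L ((a - 1) / 4))) := by
  have hm := v.isMaximal
  let _ : Field (𝓞 k ⧸ v.asIdeal) := Ideal.Quotient.field _
  have : Finite (𝓞 k ⧸ v.asIdeal) := Ideal.finiteQuotientOfFreeOfNeBot _ v.ne_bot
  obtain ⟨u, hu⟩ := exists_not_range (fun x : 𝓞 k ⧸ v.asIdeal => x ^ 2 + x) (by simp)
  obtain ⟨u₀, rfl⟩ := Ideal.Quotient.mk_surjective u
  refine ⟨u₀, fun L _ _ _ w hw hf a ha => ?_⟩
  have h1 := irrV_of hw (P := X ^ 2 + X - C u₀) (Q := 1) (l := 2) (by monicity!)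
    (by compute_degree!) (by simp) (by norm_num) (fun z hz => by
      rw [← Ideal.Quotient.eq_zero_iff_mem] at hz
      simp only [eval_sub, eval_add, eval_pow, eval_X, eval_C, map_sub, map_add, map_pow] at hz
      exact hu _ (sub_eq_zero.mp hz)) hf (τ := (a - 1) / 4 - u₀) (by
      have h2 : (a - 1) / 4 - u₀ = (a - (1 + 4 * u₀)) / 4 := by ring
      rw [h2, map_div₀, div_lt_one₀ (zero_le.trans_lt ha)]
      exact ha)
  convert h1 using 1
  have h2 : algebraMap k L (u₀ : k) = algebraMap (𝓞 k) L u₀ :=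
    (IsScalarTower.algebraMap_apply (𝓞 k) k L u₀).symm
  simp only [Polynomial.map_sub, Polynomial.map_pow, Polynomial.map_add,
    map_X, map_C, Polynomial.map_one, map_sub (algebraMap k L), h2, map_sub C]
  ring

theorem irrV_ram (hw : w.asIdeal.comap (algebraMap (𝓞 k) (𝓞 L)) = v.asIdeal)
    (he : Odd (v.asIdeal.ramificationIdx' w.asIdeal)) {a : k}
    (ha : v.valuation k a = WithZero.exp (-1 : ℤ)) : IrrV w 2 (X ^ 2 - C (algebraMap k L a)) := by
  have : w.asIdeal.LiesOver v.asIdeal := ⟨hw.symm⟩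
  refine ⟨monic_X_pow_sub_C _ two_ne_zero, natDegree_X_pow_sub_C, Or.inr ⟨rfl, _, rfl,
    fun c hc => ?_⟩⟩
  rw [← HeightOneSpectrum.valuation_liesOver L v w a, ha] at hc
  have h0 : w.valuation L c ≠ 0 := by
    intro h0
    rw [h0, zero_pow two_ne_zero] at hc
    exact pow_ne_zero _ WithZero.exp_ne_zero hc
  rw [← WithZero.exp_log h0, ← WithZero.exp_nsmul, ← WithZero.exp_nsmul, WithZero.exp_inj] at hc
  obtain ⟨s, hs⟩ := he
  rw [hs] at hc
  simp only [nsmul_eq_mul] at hc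
  push_cast at hc
  omega

theorem odd_or (h3 : finrank k L ≤ 3) (v : HeightOneSpectrum (𝓞 k)) :
    (∀ w : HeightOneSpectrum (𝓞 L), w.asIdeal.comap (algebraMap (𝓞 k) (𝓞 L)) = v.asIdeal →
      ¬ 2 ∣ v.asIdeal.inertiaDeg' w.asIdeal) ∨
    ∀ w : HeightOneSpectrum (𝓞 L), w.asIdeal.comap (algebraMap (𝓞 k) (𝓞 L)) = v.asIdeal →
      Odd (v.asIdeal.ramificationIdx' w.asIdeal) := by
  classical
  rw [or_iff_not_imp_left]
  intro h w hw
  push Not at h
  obtain ⟨w2, hw2, h2⟩ := h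
  have hm := v.isMaximal
  have l1 : w.asIdeal.LiesOver v.asIdeal := ⟨hw.symm⟩
  have l2 : w2.asIdeal.LiesOver v.asIdeal := ⟨hw2.symm⟩
  have hsum := Ideal.sum_ramification_inertia (R := 𝓞 k) (𝓞 L) k L (p := v.asIdeal) v.ne_bot
  have m1 : w.asIdeal ∈ IsDedekindDomain.primesOverFinset v.asIdeal (𝓞 L) :=
    (IsDedekindDomain.mem_primesOverFinset_iff v.ne_bot _).mpr ⟨w.isPrime, l1⟩
  have m2 : w2.asIdeal ∈ IsDedekindDomain.primesOverFinset v.asIdeal (𝓞 L) :=
    (IsDedekindDomain.mem_primesOverFinset_iff v.ne_bot _).mpr ⟨w2.isPrime, l2⟩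
  have e1 := Nat.pos_of_ne_zero
    (Ideal.IsDedekindDomain.ramificationIdx'_ne_zero_of_liesOver w.asIdeal v.ne_bot)
  have e2 := Nat.pos_of_ne_zero
    (Ideal.IsDedekindDomain.ramificationIdx'_ne_zero_of_liesOver w2.asIdeal v.ne_bot)
  have f1 := Nat.pos_of_ne_zero (Ideal.inertiaDeg'_ne_zero v.asIdeal w.asIdeal)
  have f2 := Nat.le_of_dvd
    (Nat.pos_of_ne_zero (Ideal.inertiaDeg'_ne_zero v.asIdeal w2.asIdeal)) h2
  suffices h4 : v.asIdeal.ramificationIdx' w.asIdeal = 1 by rw [h4]; exact odd_one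
  by_cases hne : w.asIdeal = w2.asIdeal
  · have hle := (Finset.single_le_sum (f := fun P =>
      v.asIdeal.ramificationIdx' P * v.asIdeal.inertiaDeg' P) (fun _ _ => Nat.zero_le _) m1).trans
      (hsum.le.trans h3)
    rw [← hne] at f2
    nlinarith
  · have hle : ∑ P ∈ {w.asIdeal, w2.asIdeal},
        v.asIdeal.ramificationIdx' P * v.asIdeal.inertiaDeg' P ≤ 3 := by
      refine (Finset.sum_le_sum_of_subset fun P hP => ?_).trans (hsum.le.trans h3)
      rcases Finset.mem_insert.mp hP with rfl | hP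
      · exact m1
      · rw [Finset.mem_singleton.mp hP]
        exact m2
    rw [Finset.sum_pair hne] at hle
    nlinarith

/-- Primes of degree one. -/
theorem exists_deg_one (L : Type) [Field L] [NumberField L] [Algebra k L]
    {T : Set (HeightOneSpectrum (𝓞 k))} (hT : T.Finite) :
    ∃ (w : HeightOneSpectrum (𝓞 L)) (v : HeightOneSpectrum (𝓞 k)), v ∉ T ∧
      w.asIdeal.comap (algebraMap (𝓞 k) (𝓞 L)) = v.asIdeal ∧
      v.asIdeal.inertiaDeg' w.asIdeal = 1 := by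
  obtain ⟨N, hN⟩ := (hT.image fun v => Ideal.absNorm v.asIdeal).bddAbove
  obtain ⟨p, hp, hNp, ⟨σ⟩⟩ := Vale.Agent.P011.H321.exists_padic_embedding L N
  have hint : ∀ y : 𝓞 L, ∃ z : ℤ_[p], (z : ℚ_[p]) = σ y := fun y =>
    IsIntegrallyClosed.algebraMap_eq_of_integral
      ((map_isIntegral_int σ y.isIntegral_coe).tower_top (A := ℤ_[p]))
  choose s hs using hint
  let s' : 𝓞 L →+* ℤ_[p] :=
    { toFun := s
      map_one' := Subtype.ext (by rw [hs]; simp)
      map_mul' := fun x y => Subtype.ext (by rw [PadicInt.coe_mul, hs, hs, hs]; simp)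
      map_zero' := Subtype.ext (by rw [hs]; simp)
      map_add' := fun x y => Subtype.ext (by rw [PadicInt.coe_add, hs, hs, hs]; simp) }
  let r : 𝓞 L →+* ZMod p := PadicInt.toZMod.comp s'
  have hpr : (p : 𝓞 L) ∈ RingHom.ker r := by
    rw [RingHom.mem_ker, map_natCast, ZMod.natCast_self]
  let w : HeightOneSpectrum (𝓞 L) := ⟨RingHom.ker r, RingHom.ker_isPrime r, fun h => by
    rw [h, Ideal.mem_bot] at hpr
    exact hp.out.ne_zero (by exact_mod_cast hpr)⟩
  obtain ⟨v, hv⟩ := exists_below (F := k) w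
  refine ⟨w, v, fun hvT => ?_, hv, ?_⟩
  · have h1 : Ideal.absNorm v.asIdeal < p := (hN ⟨v, hvT, rfl⟩).trans_lt hNp
    have h2 : ((Ideal.absNorm v.asIdeal : ℕ) : 𝓞 k) ∈ v.asIdeal := Ideal.absNorm_mem _
    rw [← hv, Ideal.mem_comap, map_natCast] at h2
    have h3 : r ((Ideal.absNorm v.asIdeal : ℕ) : 𝓞 L) = 0 := by
      rw [← hv]
      exact h2
    rw [map_natCast, ZMod.natCast_eq_zero_iff] at h3
    have h4 : Ideal.absNorm v.asIdeal ≠ 0 := fun h => v.ne_bot (Ideal.absNorm_eq_zero_iff.mp h)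
    exact absurd (Nat.le_of_dvd (Nat.pos_of_ne_zero h4) h3) (not_le.mpr h1)
  · have : w.asIdeal.LiesOver v.asIdeal := ⟨hv.symm⟩
    have hm := v.isMaximal
    have hmw := w.isMaximal
    let _ : Field (𝓞 k ⧸ v.asIdeal) := Ideal.Quotient.field _
    let _ : Field (𝓞 L ⧸ w.asIdeal) := Ideal.Quotient.field _
    rw [Ideal.inertiaDeg'_algebraMap,
      finrank_eq_one_iff_of_nonzero' (1 : 𝓞 L ⧸ w.asIdeal) one_ne_zero]
    intro c
    obtain ⟨y, rfl⟩ := Ideal.Quotient.mk_surjective c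
    obtain ⟨z, hz⟩ := ZMod.intCast_surjective (r y)
    refine ⟨z, ?_⟩
    rw [Algebra.smul_def, mul_one, map_intCast, ← map_intCast (Ideal.Quotient.mk w.asIdeal),
      Ideal.Quotient.eq]
    change r _ = 0
    rw [map_sub, map_intCast, hz, sub_self]

theorem exists_t (h2 : finrank k L ≤ 2) {S : Set (HeightOneSpectrum (𝓞 L))} (hS : S.Finite)
    (F : Type) [Field F] [NumberField F] [Algebra k F] :
    ∃ t : k, (∀ w ∈ S, IrrV w 3 (shk (algebraMap k L t))) ∧
      ∀ x : F, (shk (algebraMap k F t)).eval x ≠ 0 := by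
  obtain ⟨w₀, v₀, -, h3, h4⟩ := exists_deg_one (k := k) F Set.finite_empty
  choose t₀ ht₀ using exists_cub (k := k)
  choose b hb using fun w : HeightOneSpectrum (𝓞 L) => exists_below (F := k) w
  obtain ⟨t, ht⟩ := approx (Sum.inl '' insert v₀ (b '' S) : Set (Pl k))
    (((hS.image b).insert v₀).image _) (Sum.elim (fun v => (t₀ v : k)) fun _ => 0) (fun _ => 1)
    fun _ => one_pos
  have ht' : ∀ v ∈ insert v₀ (b '' S), v.valuation k (t - t₀ v) < 1 := fun v hv =>
    (Vale.Agent.P011.Arith.plAbv_lt_one v _).mp (ht _ ⟨v, hv, rfl⟩)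
  refine ⟨t, fun w hw => ht₀ (b w) L w (hb w) (fun h5 => ?_) t (ht' _ (Or.inr ⟨w, hw, rfl⟩)),
    (ht₀ v₀ F w₀ h3 (by rw [h4]; norm_num) t (ht' _ (Or.inl rfl))).no_root Nat.prime_three le_rfl⟩
  have : w.asIdeal.LiesOver (b w).asIdeal := ⟨(hb w).symm⟩
  have hm := (b w).isMaximal
  have h6 := (Finset.single_le_sum (f := fun P =>
    (b w).asIdeal.ramificationIdx' P * (b w).asIdeal.inertiaDeg' P) (fun _ _ => Nat.zero_le _)
    ((IsDedekindDomain.mem_primesOverFinset_iff (b w).ne_bot _).mpr ⟨w.isPrime, this⟩)).trans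
    ((Ideal.sum_ramification_inertia (R := 𝓞 k) (𝓞 L) k L (b w).ne_bot).le.trans h2)
  have h7 := Nat.le_of_dvd
    (Nat.pos_of_ne_zero (Ideal.inertiaDeg'_ne_zero (b w).asIdeal w.asIdeal)) h5
  have h8 := Nat.pos_of_ne_zero
    (Ideal.IsDedekindDomain.ramificationIdx'_ne_zero_of_liesOver w.asIdeal (b w).ne_bot)
  nlinarith

theorem exists_a (h3 : finrank k L ≤ 3) {S : Set (HeightOneSpectrum (𝓞 L))} (hS : S.Finite)
    (F : Type) [Field F] [NumberField F] [Algebra k F] :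
    ∃ a : k, (∀ φ : k →+* ℝ, φ a < 0) ∧ ¬ IsSquare (algebraMap k F a) ∧
      ∀ w ∈ S, IrrV w 2 (X ^ 2 - C (algebraMap k L a)) ∨
        IrrV w 2 (X ^ 2 + X - C (algebraMap k L ((a - 1) / 4))) := by
  choose b hb using fun w : HeightOneSpectrum (𝓞 L) => exists_below (F := k) w
  obtain ⟨w₀, v₀, hv₀, h4, h5⟩ := exists_deg_one (k := k) F (hS.image b)
  have key : ∀ v : HeightOneSpectrum (𝓞 k), ∃ z g : k, g ≠ 0 ∧ ∀ a : k,
      v.valuation k (a - z) < v.valuation k g →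
      (v = v₀ → IrrV w₀ 2 (X ^ 2 + X - C (algebraMap k F ((a - 1) / 4)))) ∧
      (v ≠ v₀ → ∀ w : HeightOneSpectrum (𝓞 L),
        w.asIdeal.comap (algebraMap (𝓞 k) (𝓞 L)) = v.asIdeal →
        IrrV w 2 (X ^ 2 - C (algebraMap k L a)) ∨
          IrrV w 2 (X ^ 2 + X - C (algebraMap k L ((a - 1) / 4)))) := by
    intro v
    obtain ⟨u₀, hu₀⟩ := exists_quad v
    by_cases hv : v = v₀
    · subst hv
      exact ⟨1 + 4 * u₀, 4, by norm_num, fun a ha =>
        ⟨fun _ => hu₀ F w₀ h4 (by rw [h5]; norm_num) a ha, fun h => absurd rfl h⟩⟩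
    rcases odd_or h3 v with h6 | h6
    · exact ⟨1 + 4 * u₀, 4, by norm_num, fun a ha =>
        ⟨fun h => absurd h hv, fun _ w hw => Or.inr (hu₀ L w hw (h6 w hw) a ha)⟩⟩
    · obtain ⟨π, hπ⟩ := v.valuation_exists_uniformizer k
      refine ⟨π, π, fun h => ?_, fun a ha =>
        ⟨fun h => absurd h hv, fun _ w hw => Or.inl (irrV_ram hw (h6 w hw) ?_)⟩⟩
      · rw [h, map_zero] at hπ
        exact WithZero.exp_ne_zero hπ.symm
      · rw [← hπ]
        exact Valuation.map_eq_of_sub_lt _ ha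
  choose z g hg hz using key
  obtain ⟨a, ha⟩ := approx (Sum.inl '' insert v₀ (b '' S) ∪ Set.range Sum.inr : Set (Pl k))
    ((((hS.image b).insert v₀).image _).union (Set.finite_range _))
    (Sum.elim z fun _ => -1) (Sum.elim (fun v => plAbv (.inl v) (g v)) fun _ => 1) (by
      rintro (v | φ)
      · exact (plAbv (.inl v)).pos (hg v)
      · exact one_pos)
  have ha' : ∀ v ∈ insert v₀ (b '' S), v.valuation k (a - z v) < v.valuation k (g v) :=
    fun v hv => (plAbv_lt v _ _).mp (ha _ (Or.inl ⟨v, hv, rfl⟩))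
  refine ⟨a, fun φ => ?_, ?_, fun w hw => (hz _ a (ha' _ (Or.inr ⟨w, hw, rfl⟩))).2
    (fun h => hv₀ ⟨w, hw, h⟩) w (hb w)⟩
  · have h6 : |φ (a - -1)| < 1 := ha (.inr φ) (Or.inr ⟨φ, rfl⟩)
    rw [map_sub, map_neg, map_one, abs_lt] at h6
    linarith [h6.2]
  · rintro ⟨d, hd⟩
    apply ((hz _ a (ha' _ (Or.inl rfl))).1 rfl).no_root Nat.prime_two (by norm_num) ((d - 1) / 2)
    simp only [eval_sub, eval_add, eval_pow, eval_X, eval_C, map_div₀, map_sub, map_one,
      map_ofNat, hd]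
    ring

end Vale.Agent.P011N.Cl.K
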