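import Vale.Agent.P011N.Cl.K.Lin
import Vale.Agent.P011N.Cl.K.Ari

/-!
The Tits algebras of exponent two and three are split by small extensions of the ground field.
-/

open Module Equiv Polynomial NumberField IsDedekindDomain

namespace Vale.Agent.P011N.Cl.K

open Vale.Agent.P011.W

theorem exists_fixed {F : Type} [Field F] [NumberField F] (Γ : Subgroup (Gl F)) :
    ∃ (L : Type) (_ : Field L) (_ : NumberField L) (_ : Algebra L F),
      (∀ x : F, Fx Γ x ↔ x ∈ Set.range (algebraMap L F)) ∧ finrank L F = Nat.card Γ :=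
  ⟨IntermediateField.fixedField Γ, inferInstance, inferInstance, inferInstance,
    fun x => fx_iff.trans ⟨fun h => ⟨⟨x, h⟩, rfl⟩, fun ⟨y, h⟩ => h ▸ y.2⟩,
    IntermediateField.finrank_fixedField_eq_card Γ⟩

theorem exists_hom {k L F : Type} [Field k] [Field L] [Field F] (f : k →+* F) (g : L →+* F)
    (h : ∀ c, f c ∈ Set.range g) : ∃ s : k →+* L, ∀ c, g (s c) = f c := by
  choose s hs using h
  exact ⟨⟨⟨⟨s, g.injective (by rw [hs, map_one, map_one])⟩,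
    fun x y => g.injective (by rw [map_mul g, hs, hs, hs, map_mul])⟩,
    g.injective (by rw [map_zero g]; exact (hs 0).trans (map_zero f)),
    fun x y => g.injective (by
      rw [map_add g]
      exact (hs _).trans (by rw [map_add, ← hs, ← hs])) ⟩, hs⟩

theorem exists_tower {F : Type} [Field F] [NumberField F] {Γ Γ₀ : Subgroup (Gl F)} (hle : Γ₀ ≤ Γ) :
    ∃ (k L : Type) (_ : Field k) (_ : NumberField k) (_ : Field L) (_ : NumberField L)
      (_ : Algebra k L) (_ : Algebra L F) (_ : Algebra k F) (_ : IsScalarTower k L F),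
      (∀ x : F, Fx Γ x ↔ x ∈ Set.range (algebraMap k F)) ∧
      (∀ x : F, Fx Γ₀ x ↔ x ∈ Set.range (algebraMap L F)) ∧ finrank k L = Γ₀.relIndex Γ := by
  obtain ⟨k, _, _, _, h1, h2⟩ := exists_fixed Γ
  obtain ⟨L, _, _, _, h3, h4⟩ := exists_fixed Γ₀
  obtain ⟨s, hs⟩ := exists_hom (algebraMap k F) (algebraMap L F) fun c =>
    (h3 _).mp (((h1 _).mpr ⟨c, rfl⟩).mono hle)
  let _ : Algebra k L := s.toAlgebra
  have : IsScalarTower k L F := IsScalarTower.of_algebraMap_eq fun c => (hs c).symm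
  refine ⟨k, L, _, inferInstance, _, inferInstance, inferInstance, _, _, this, h1, h3, ?_⟩
  have h5 := Module.finrank_mul_finrank k L F
  have h6 := Subgroup.index_mul_card (Γ₀.subgroupOf Γ)
  rw [Nat.card_congr (Subgroup.subgroupOfEquivOfLe hle).toEquiv, ← h2, ← h5, h4] at h6
  exact (Nat.eq_of_mul_eq_mul_right Nat.card_pos h6).symm

theorem main {F L W : Type} [Field F] [NumberField F] [Field L] [NumberField L] [Algebra L F]
    [AddCommGroup W] [Module F W] [FiniteDimensional F W] {Γ : Subgroup (Gl F)}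
    {Ψ : Subgroup (Perm W)} (h : PD L Γ Ψ) {l : ℕ} (hl : l.Prime) (hl3 : l ≤ 3) {θ : ML F W l}
    (h0 : θ ≠ 0) (hθ : ∀ ψ ∈ Ψ, ∀ γ ∈ Γ, Semi γ ψ → ∃ ν, Tf γ ψ ν θ θ) :
    ∃ S : Set (HeightOneSpectrum (𝓞 L)), S.Finite ∧
      ∀ (F' : Type) [Field F'] [NumberField F'] (ι : F →+* F') (Γ' : Subgroup (Gl F'))
        (W' : Type) [AddCommGroup W'] [Module F' W'] (j : W → W'), Ext ι Γ Γ' → BC ι j →
        ∀ u : F', (∀ (M : Type) [Field M] [Algebra L M] (κ : M →+* F') (u₀ : M),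
          (∀ c : L, κ (algebraMap L M c) = ι (algebraMap L F c)) → κ u₀ = u →
          (∀ w ∈ S, ∃ (p : L[X]) (α : M), IrrV w l p ∧ aeval α p = 0) ∧
            (l = 3 ∨ IsEmpty (M →+* ℝ))) →
        ∃ y : W', y ≠ 0 ∧ ∀ (φ' : Perm W'), ∀ γ' ∈ Γ', γ' u = u →
          Semi γ' φ' → (∃ ψ ∈ Ψ, ∀ x, φ' (j x) = j (ψ x)) → ∃ c : F', φ' y = c • y := by
  let _ : Module L W := Module.compHom W (algebraMap L F)
  have : IsScalarTower L F W := IsScalarTower.of_algebraMap_smul fun _ _ => rfl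
  have : Nontrivial W := by
    by_contra hcon
    rw [not_nontrivial_iff_subsingleton] at hcon
    exact h0 (MultilinearMap.ext fun x => θ.map_coord_zero ⟨0, hl.pos⟩ (Subsingleton.elim _ _))
  obtain ⟨r, d, _, D, _, _, _, _, e, hrd, hD⟩ := h.exists_div
  obtain ⟨S, hS, hspl⟩ := glob hD ((h.tp h0 hθ).part e hrd) hl hl3
  refine ⟨S, hS, fun F' _ _ ι Γ' W' _ _ j hE hj u hu => ?_⟩
  obtain ⟨M, _, _, _, h1, -⟩ := exists_fixed (stb Γ' u)
  obtain ⟨s, hs⟩ := exists_hom (ι.comp (algebraMap L F)) (algebraMap M F') fun c =>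
    (h1 _).mp ((hE.fx ((h.fix _).mpr ⟨c, rfl⟩)).mono stb_le)
  let _ : Algebra L M := s.toAlgebra
  obtain ⟨u₀, hu₀⟩ := (h1 u).mp fun γ hγ => hγ.2
  obtain ⟨h2, h3⟩ := hu M (algebraMap M F') u₀ hs hu₀
  obtain ⟨y, hy0, hy⟩ := h.line e hrd hD hj (algebraMap M F') hs (hspl M h2 h3)
  exact ⟨y, hy0, fun φ' γ' q1 q2 => hy φ' γ' fun c => (h1 _).mpr ⟨c, rfl⟩ γ' ⟨q1, q2⟩⟩

theorem k2 : K2Stmt := by
  intro F _ _ Γ Γ₀ hle hidx W _ _ _ Ψ hov hlin θ h0 hθ
  obtain ⟨k, L, _, _, _, _, _, _, _, _, hk, hL, hkL⟩ := exists_tower hle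
  let θ' : ML F W 2 := MultilinearMap.mk' (fun x => θ (x 0) (x 1))
    (fun x i a b => by fin_cases i <;> simp) (fun x i c a => by fin_cases i <;> simp)
  obtain ⟨S, hS, hmain⟩ := main (⟨hL, hov, hlin⟩ : PD L Γ₀ Ψ) Nat.prime_two (by norm_num)
    (θ := θ') (fun h => h0 (LinearMap.ext₂ fun x y => DFunLike.congr_fun h ![x, y]))
    fun ψ hψ γ hγ hs => by
      obtain ⟨ν, hν⟩ := hθ ψ hψ γ hγ hs
      exact ⟨ν, fun x => hν _ _⟩
  obtain ⟨a, h1, h2, h3⟩ := exists_a (hkL ▸ hidx) hS F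
  refine ⟨algebraMap k F a, (hk _).mpr ⟨a, rfl⟩, h2, fun w hw => ?_,
    fun F' _ _ ι Γ' W' _ _ j hE hj d hd => hmain F' ι Γ' W' j hE hj d
      fun M _ _ κ d₀ hκ hd₀ => ?_⟩
  · obtain ⟨φ, hφ⟩ := exists_hom (w.comp (algebraMap k F)) (algebraMap ℝ ℂ) fun c =>
      ⟨(w (algebraMap k F c)).re,
        Complex.ext rfl (hw _ ((hk _).mpr ⟨c, rfl⟩)).symm⟩
    have h4 := congrArg Complex.re (hφ a)
    exact h4 ▸ h1 φ
  · have h4 : d₀ ^ 2 = algebraMap L M (algebraMap k L a) := κ.injective (by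
      rw [map_pow, hd₀, hd, hκ, ← IsScalarTower.algebraMap_apply])
    have : CharZero M := κ.charZero
    refine ⟨fun w hw => ?_, Or.inr ⟨fun φ => ?_⟩⟩
    · rcases h3 w hw with h5 | h5
      · exact ⟨_, d₀, h5, by rw [map_sub, map_pow, aeval_X, aeval_C, h4, sub_self]⟩
      · refine ⟨_, (d₀ - 1) / 2, h5, ?_⟩
        simp only [map_sub, map_add, map_pow, aeval_X, aeval_C, map_div₀, map_one, map_ofNat,
          ← h4]
        ring
    · have h5 := h1 ((φ.comp (algebraMap L M)).comp (algebraMap k L))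
      rw [RingHom.comp_apply, RingHom.comp_apply, ← h4, map_pow] at h5
      exact absurd h5 (not_lt.mpr (sq_nonneg _))

theorem k3 : K3Stmt := by
  intro F _ _ Γ Γ₀ hle hidx W _ _ _ Ψ hov hlin θ h0 hθ
  obtain ⟨k, L, _, _, _, _, _, _, _, _, hk, hL, hkL⟩ := exists_tower hle
  let θ' : ML F W 3 := MultilinearMap.mk' (fun x => θ (x 0) (x 1) (x 2))
    (fun x i a b => by fin_cases i <;> simp) (fun x i c a => by fin_cases i <;> simp)
  obtain ⟨S, hS, hmain⟩ := main (⟨hL, hov, hlin⟩ : PD L Γ₀ Ψ) Nat.prime_three le_rfl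
    (θ := θ') (fun h => h0 (LinearMap.ext fun x => LinearMap.ext₂ fun y z =>
      DFunLike.congr_fun h ![x, y, z]))
    fun ψ hψ γ hγ hs => by
      obtain ⟨ν, hν⟩ := hθ ψ hψ γ hγ hs
      exact ⟨ν, fun x => hν _ _ _⟩
  obtain ⟨t, h1, h2⟩ := exists_t (hkL ▸ hidx) hS F
  refine ⟨algebraMap k F t, (hk _).mpr ⟨t, rfl⟩, fun x => ?_,
    fun F' _ _ ι Γ' W' _ _ j hE hj u hu => hmain F' ι Γ' W' j hE hj u
      fun M _ _ κ u₀ hκ hu₀ => ⟨fun w hw => ⟨_, u₀, h1 w hw, κ.injective ?_⟩, Or.inl rfl⟩⟩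
  · have h3 := h2 x
    rwa [← coe_aeval_eq_eval, aeval_shk] at h3
  · rw [aeval_shk, map_zero, ← hu, ← hu₀, IsScalarTower.algebraMap_apply k L F, ← hκ]
    simp only [map_sub, map_mul, map_pow, map_add, map_one, map_ofNat]

end Vale.Agent.P011N.Cl.K
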