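import Mathlib

/-!
Matrix units, and algebras whose tensor power is split.
-/

open Module TensorProduct

namespace Vale.Agent.P011N.Cl.K

section corner

variable {R V ι : Type} [Field R] [AddCommGroup V] [Module R V] [Fintype ι] [DecidableEq ι]

/-- A system of matrix units. -/
structure MU (e : ι → ι → Module.End R V) : Prop where
  mul : ∀ a b c d, e a b * e c d = if b = c then e a d else 0
  sum : ∑ a, e a a = 1

/-- The fixed vectors. -/
def fx (f : Module.End R V) : Submodule R V := LinearMap.eqLocus f LinearMap.id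

omit [Fintype ι] [DecidableEq ι] in
theorem mem_fx {f : Module.End R V} {x : V} : x ∈ fx f ↔ f x = x := Iff.rfl

theorem MU.app {e : ι → ι → Module.End R V} (h : MU e) (a b c d : ι) (x : V) :
    e a b (e c d x) = if b = c then e a d x else 0 := by
  have h1 := congrArg (fun f : Module.End R V => f x) (h.mul a b c d)
  simp only [Module.End.mul_apply] at h1
  rw [h1]
  split_ifs <;> rfl

theorem MU.sum_app {e : ι → ι → Module.End R V} (h : MU e) (x : V) : ∑ a, e a a x = x := by
  have h1 := congrArg (fun f : Module.End R V => f x) h.sum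
  simpa only [LinearMap.sum_apply, Module.End.one_apply] using h1

theorem MU.corner [FiniteDimensional R V] {e : ι → ι → Module.End R V} (h : MU e) (i0 : ι)
    (U : Submodule R V) (hU : ∀ a b, ∀ x ∈ U, e a b x ∈ U) :
    finrank R U = Fintype.card ι * finrank R ↥(U ⊓ fx (e i0 i0)) := by
  let f : U →ₗ[R] (ι → ↥(U ⊓ fx (e i0 i0))) :=
    { toFun := fun x a => ⟨e i0 a x, hU _ _ _ x.2, by
        change e i0 i0 (e i0 a x) = e i0 a x
        rw [h.app, if_pos rfl]⟩
      map_add' := fun x y => by
        ext a
        simp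
      map_smul' := fun c x => by
        ext a
        simp }
  have hf : ∀ (x : U) a, ((f x a : ↥(U ⊓ fx (e i0 i0))) : V) = e i0 a x := fun _ _ => rfl
  have hbij : Function.Bijective f := by
    constructor
    · rw [injective_iff_map_eq_zero]
      intro x hx
      apply Subtype.ext
      rw [← h.sum_app (x : V)]
      refine Finset.sum_eq_zero fun a _ => ?_
      have h1 : e i0 a x = 0 := by rw [← hf, hx]; rfl
      have h2 := h.app a i0 i0 a x
      rw [if_pos rfl, h1, map_zero] at h2
      exact h2.symm
    · intro g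
      refine ⟨⟨∑ a, e a i0 (g a), U.sum_mem fun a _ => hU _ _ _ (g a).2.1⟩, ?_⟩
      ext a
      rw [hf]
      change e i0 a (∑ b, e b i0 (g b)) = _
      rw [map_sum, Finset.sum_eq_single a]
      · rw [h.app, if_pos rfl]
        exact (g a).2.2
      · intro b _ hb
        rw [h.app, if_neg (Ne.symm hb)]
      · intro h1
        exact absurd (Finset.mem_univ _) h1
  rw [(LinearEquiv.ofBijective f hbij).finrank_eq, Module.finrank_pi_fintype, Finset.sum_const,
    Finset.card_univ, smul_eq_mul]

theorem corner_all [FiniteDimensional R V] {l : ℕ} (e : Fin l → ι → ι → Module.End R V)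
    (h : ∀ i, MU (e i)) (hc : ∀ i j, i ≠ j → ∀ a b c d, Commute (e i a b) (e j c d)) (i0 : ι) :
    finrank R V = Fintype.card ι ^ l * finrank R ↥(⨅ i, fx (e i i0 i0)) := by
  have key : ∀ S : Finset (Fin l), finrank R V =
      Fintype.card ι ^ S.card * finrank R ↥(⨅ i ∈ S, fx (e i i0 i0)) := by
    intro S
    induction S using Finset.induction_on with
    | empty =>
      have h1 : (⨅ i ∈ (∅ : Finset (Fin l)), fx (e i i0 i0)) = ⊤ := by simp
      rw [h1, finrank_top, Finset.card_empty, pow_zero, one_mul]
    | insert j S hj ih =>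
      have h1 : (⨅ i ∈ insert j S, fx (e i i0 i0)) =
          (⨅ i ∈ S, fx (e i i0 i0)) ⊓ fx (e j i0 i0) := by
        rw [Finset.iInf_insert, inf_comm]
      rw [h1, ih, (h j).corner i0, Finset.card_insert_of_notMem hj, pow_succ, mul_assoc]
      intro a b x hx
      simp only [Submodule.mem_iInf, mem_fx] at hx ⊢
      intro i hi
      have hij : i ≠ j := fun h2 => hj (h2 ▸ hi)
      have h2 := congrArg (fun f : Module.End R V => f x) (hc i j hij i0 i0 a b).eq
      simp only [Module.End.mul_apply] at h2
      rw [h2, hx i hi]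
  have h1 := key Finset.univ
  have h2 : (⨅ i ∈ (Finset.univ : Finset (Fin l)), fx (e i i0 i0)) = ⨅ i, fx (e i i0 i0) := by
    simp
  rwa [h2, Finset.card_univ, Fintype.card_fin] at h1

theorem mu_of_hom {B : Type} [Ring B] (G : Matrix ι ι B →+* Module.End R V) :
    MU fun a b => G (Matrix.single a b 1) := by
  constructor
  · intro a b c d
    rw [← map_mul]
    split_ifs with h
    · subst h
      rw [Matrix.single_mul_single_same, mul_one]
    · rw [Matrix.single_mul_single_of_ne _ _ _ _ h, map_zero]
  · rw [← map_sum, Matrix.sum_single_one, map_one]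

omit [Fintype ι] [DecidableEq ι] in
theorem exists_line (U : Submodule R V) (h : finrank R U = 1) :
    ∃ y ∈ U, y ≠ 0 ∧ ∀ z ∈ U, ∃ c : R, z = c • y := by
  obtain ⟨y, hy0, hy⟩ := finrank_eq_one_iff'.mp h
  refine ⟨y, y.2, fun h1 => hy0 (Subtype.ext h1), fun z hz => ?_⟩
  obtain ⟨c, hc⟩ := hy ⟨z, hz⟩
  exact ⟨c, (congrArg Subtype.val hc).symm⟩

end corner

section tp

/-- The restriction of a representation to a stable subspace. -/
def resA {k B V : Type} [Field k] [Ring B] [Algebra k B] [AddCommGroup V] [Module k V]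
    (ρ : B →ₐ[k] Module.End k V) (U : Submodule k V) (hU : ∀ b, ∀ x ∈ U, ρ b x ∈ U) :
    B →ₐ[k] Module.End k U where
  toFun b := (ρ b).restrict (hU b)
  map_one' := by
    ext x
    simp
  map_mul' a b := by
    ext x
    simp
  map_zero' := by
    ext x
    simp
  map_add' a b := by
    ext x
    simp
  commutes' c := by
    ext x
    simp

/-- The extension of scalars of a representation. -/
noncomputable def bcA {k A Y : Type} [Field k] [Ring A] [Algebra k A] [AddCommGroup Y]
    [Module k Y] (K : Type) [Field K] [Algebra k K] (ρ : A →ₐ[k] Module.End k Y) :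
    K ⊗[k] A →ₐ[K] Module.End K (K ⊗[k] Y) :=
  AlgHom.liftEquiv k K A _ ((Module.End.baseChangeHom k K Y).comp ρ)

theorem bcA_tmul {k A Y : Type} [Field k] [Ring A] [Algebra k A] [AddCommGroup Y]
    [Module k Y] {K : Type} [Field K] [Algebra k K] (ρ : A →ₐ[k] Module.End k Y) (s : K) (a : A) :
    bcA K ρ (s ⊗ₜ a) = s • (ρ a).baseChange K := by
  rw [bcA, AlgHom.liftEquiv_tmul]
  rfl

theorem bcA_comm {k A Y : Type} [Field k] [Ring A] [Algebra k A] [AddCommGroup Y]
    [Module k Y] {K : Type} [Field K] [Algebra k K] {ρ ρ' : A →ₐ[k] Module.End k Y}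
    (h : ∀ a b, Commute (ρ a) (ρ' b)) (x y : K ⊗[k] A) : Commute (bcA K ρ x) (bcA K ρ' y) := by
  induction x using TensorProduct.induction_on with
  | zero => rw [map_zero]; exact Commute.zero_left _
  | add x x' hx hx' => rw [map_add]; exact hx.add_left hx'
  | tmul s a =>
    induction y using TensorProduct.induction_on with
    | zero => rw [map_zero]; exact Commute.zero_right _
    | add y y' hy hy' => rw [map_add]; exact hy.add_right hy'
    | tmul t b =>
      rw [bcA_tmul, bcA_tmul]
      refine Commute.smul_left (Commute.smul_right ?_ _) _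
      exact (h a b).map (Module.End.baseChangeHom k K Y)

/-- The tensor power of order `l` of the algebra `A` of degree `n` is split. -/
def TP (l : ℕ) (k A : Type) [Field k] [Ring A] [Algebra k A] (n : ℕ) : Prop :=
  ∃ (Y : Type) (_ : AddCommGroup Y) (_ : Module k Y) (_ : FiniteDimensional k Y)
    (ρ : Fin l → (A →ₐ[k] Module.End k Y)),
    finrank k Y = n ^ l ∧ ∀ i j, i ≠ j → ∀ a b, Commute (ρ i a) (ρ j b)

variable {l n : ℕ} {k A : Type} [Field k] [Ring A] [Algebra k A]

theorem TP.bc (h : TP l k A n) (K : Type) [Field K] [Algebra k K] : TP l K (K ⊗[k] A) n := by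
  obtain ⟨Y, _, _, _, ρ, h1, h2⟩ := h
  exact ⟨K ⊗[k] Y, inferInstance, inferInstance, inferInstance, fun i => bcA K (ρ i),
    by rw [Module.finrank_baseChange, h1], fun i j hij => bcA_comm (h2 i j hij)⟩

theorem TP.part (h : TP l k A n) {B : Type} [Ring B] [Algebra k B] {s q : ℕ} [NeZero s]
    (ψ : A ≃ₐ[k] Matrix (Fin s) (Fin s) B) (hsq : s * q = n) : TP l k B q := by
  obtain ⟨Y, _, _, _, ρ, h1, h2⟩ := h
  let G : Fin l → (Matrix (Fin s) (Fin s) B →ₐ[k] Module.End k Y) := fun i =>
    (ρ i).comp (ψ.symm : Matrix (Fin s) (Fin s) B →ₐ[k] A)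
  have hG : ∀ i j, i ≠ j → ∀ a b, Commute (G i a) (G j b) := fun i j hij a b => h2 i j hij _ _
  have h3 := corner_all (fun i a b => G i (Matrix.single a b 1))
    (fun i => mu_of_hom (G i : Matrix (Fin s) (Fin s) B →+* Module.End k Y))
    (fun i j hij a b c d => hG i j hij _ _) 0
  let U : Submodule k Y := ⨅ i, fx (G i (Matrix.single 0 0 1))
  have hU : ∀ i, ∀ b, ∀ x ∈ U, ((G i).comp (Matrix.scalarAlgHom (Fin s) k)) b x ∈ U := by
    intro i b x hx
    simp only [U, Submodule.mem_iInf, mem_fx] at hx ⊢
    intro j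
    have h4 : Commute (G j (Matrix.single 0 0 1)) (G i (Matrix.scalarAlgHom (Fin s) k b)) := by
      by_cases hij : j = i
      · subst hij
        refine Commute.map ?_ (G j)
        change Matrix.single 0 0 1 * Matrix.scalar (Fin s) b =
          Matrix.scalar (Fin s) b * Matrix.single 0 0 1
        ext a c
        rw [Matrix.scalar_apply, Matrix.mul_diagonal, Matrix.diagonal_mul, Matrix.single_apply]
        split_ifs <;> simp
      · exact hG j i hij _ _
    have h5 := congrArg (fun f : Module.End k Y => f x) h4.eq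
    simp only [Module.End.mul_apply] at h5
    rw [hx j] at h5
    exact h5
  refine ⟨U, inferInstance, inferInstance, inferInstance, fun i => resA _ U (hU i), ?_, ?_⟩
  · rw [h1, Fintype.card_fin, ← hsq, mul_pow] at h3
    exact (Nat.eq_of_mul_eq_mul_left (pow_pos (Nat.pos_of_ne_zero (NeZero.ne s)) l) h3).symm
  · intro i j hij a b
    ext x
    exact congrArg (fun f : Module.End k Y => f x) (hG i j hij _ _).eq

end tp

end Vale.Agent.P011N.Cl.K
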