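import Vale.Agent.P011N.Cl.K.Cor
import Vale.Agent.P011.W.Part
import Vale.Agent.P011.W.Spl

/-!
Cyclic algebras whose tensor power is split.
-/

open Module TensorProduct

namespace Vale.Agent.P011N.Cl.K

open Vale.Agent.P011.W
open Vale.Agent.P011S (bcf bcf_one_tmul simple_tensor)

theorem bcf_bij {K D Ω : Type} [Field K] [DivisionRing D] [Algebra K D] [FiniteDimensional K D]
    [Algebra.IsCentral K D] [Field Ω] [Algebra K Ω] {d : ℕ} (hD : finrank K D = d ^ 2)
    (f : D →ₐ[K] Matrix (Fin d) (Fin d) Ω) : Function.Bijective (bcf (E := Ω) f) := by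
  have hd := deg_pos hD
  have : Nonempty (Fin d) := ⟨⟨0, hd⟩⟩
  have : IsSimpleRing (Ω ⊗[K] D) := simple_tensor
  have hinj : Function.Injective (bcf (E := Ω) f) := (bcf (E := Ω) f).toRingHom.injective
  refine ⟨hinj, ?_⟩
  have h1 : finrank Ω (Ω ⊗[K] D) = finrank Ω (Matrix (Fin d) (Fin d) Ω) := by
    rw [Module.finrank_baseChange, hD, Module.finrank_matrix, Fintype.card_fin,
      Module.finrank_self, mul_one, pow_two]
  exact (LinearMap.injective_iff_surjective_of_finrank_eq_finrank h1
    (f := (bcf (E := Ω) f).toLinearMap)).mp hinj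

/-- The data of a cyclic algebra. -/
structure Cy (k Δ W : Type) [Field k] [DivisionRing Δ] [Algebra k Δ] [Field W] [Algebra k W]
    (m : ℕ) where
  ι : W →ₐ[k] Δ
  σ : W →ₐ[k] W
  π : Δ
  π0 : π ≠ 0
  hσ : ∀ w, π * ι w = ι (σ w) * π
  ω : W
  inj : ∀ a b, a < m → b < m → σ^[a] ω = σ^[b] ω → a = b
  per : ∀ w, σ^[m] w = w

namespace Cy

variable {k Δ W : Type} [Field k] [DivisionRing Δ] [Algebra k Δ] [Field W] [Algebra k W] {m : ℕ}
  (C : Cy k Δ W m)

theorem iter (i : ℕ) (w : W) : C.π ^ i * C.ι w = C.ι (C.σ^[i] w) * C.π ^ i := by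
  induction i with
  | zero => simp
  | succ i ih =>
    rw [Function.iterate_succ_apply', pow_succ' C.π, mul_assoc, ih, ← mul_assoc, C.hσ, mul_assoc]

theorem σ_alg (i : ℕ) (c : k) : C.σ^[i] (algebraMap k W c) = algebraMap k W c := by
  induction i with
  | zero => rfl
  | succ i ih => rw [Function.iterate_succ_apply', ih, C.σ.commutes]

variable [FiniteDimensional k Δ] [Algebra.IsCentral k Δ]

theorem exists_X (hW : finrank k W = m) (hΔ : finrank k Δ = m ^ 2) :
    (∃ X : Δ →ₐ[k] Matrix (Fin m) (Fin m) W,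
      ∀ w, X (C.ι w) = Matrix.diagonal fun i : Fin m => C.σ^[(i : ℕ)] w) ∧
    ∃ ϖ : k, algebraMap k Δ ϖ = C.π ^ m := by
  have hm := deg_pos hΔ
  have : Nonempty (Fin m) := ⟨⟨0, hm⟩⟩
  let _ := modL (C.ι : W →+* Δ)
  have hs : ∀ (l : W) (d : Δ), l • d = C.ι l * d := fun _ _ => rfl
  have : IsScalarTower k W Δ := IsScalarTower.of_algebraMap_smul fun c d => by
    change C.ι (algebraMap k W c) * d = c • d
    rw [C.ι.commutes, Algebra.smul_def]
  have hLD : FiniteDimensional W Δ := Module.Finite.of_restrictScalars_finite k W Δ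
  have hr : finrank W Δ = m := by
    have h1 := Module.finrank_mul_finrank k W Δ
    rw [hW, hΔ, pow_two] at h1
    exact Nat.eq_of_mul_eq_mul_left hm h1
  let T : Module.End W Δ :=
    { toFun := fun x => x * C.ι C.ω
      map_add' := fun x y => add_mul _ _ _
      map_smul' := fun l x => by rw [hs, mul_assoc]; rfl }
  have hli : LinearIndependent W fun i : Fin m => C.π ^ (i : ℕ) := by
    refine Module.End.eigenvectors_linearIndependent' T (fun i : Fin m => C.σ^[(i : ℕ)] C.ω)
      ?_ _ ?_
    · intro a b hab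
      exact Fin.ext (C.inj a b a.2 b.2 hab)
    · intro i
      rw [Module.End.hasEigenvector_iff, Module.End.mem_eigenspace_iff]
      exact ⟨C.iter i C.ω, pow_ne_zero _ C.π0⟩
  let e : Module.Basis (Fin m) W Δ :=
    basisOfLinearIndependentOfCardEqFinrank hli (by rw [Fintype.card_fin, hr])
  have he : ∀ i, e i = C.π ^ (i : ℕ) := fun i =>
    congrFun (coe_basisOfLinearIndependentOfCardEqFinrank hli (by rw [Fintype.card_fin, hr])) i
  obtain ⟨X, -, hX⟩ := exists_reg (C.ι : W →+* Δ) e
  have hX' : ∀ w, X (C.ι w) = Matrix.diagonal fun i : Fin m => C.σ^[(i : ℕ)] w := by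
    intro w
    apply hX
    intro i
    rw [he]
    exact C.iter i w
  constructor
  · refine ⟨{ X with commutes' := fun c => ?_ }, hX'⟩
    change X (algebraMap k Δ c) = _
    rw [← C.ι.commutes, hX']
    ext i j
    rw [Matrix.algebraMap_matrix_apply, Matrix.diagonal_apply, C.σ_alg]
  · have h3 : C.π ^ m ∈ Subalgebra.center k Δ := by
      rw [Subalgebra.mem_center_iff]
      intro x
      rw [← e.sum_repr x, Finset.sum_mul, Finset.mul_sum]
      refine Finset.sum_congr rfl fun i _ => ?_
      rw [hs, he, ← mul_assoc, C.iter, C.per, mul_assoc, mul_assoc, ← pow_add, ← pow_add,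
        add_comm]
    rw [Algebra.IsCentral.center_eq_bot] at h3
    exact Algebra.mem_bot.mp h3

/-- If the tensor power is split, the power of the parameter is a norm. -/
theorem norm_eq (hW : finrank k W = m) (hΔ : finrank k Δ = m ^ 2) {l : ℕ} (h : TP l k Δ m) :
    ∃ (ϖ : k) (ν : W), algebraMap k Δ ϖ = C.π ^ m ∧
      algebraMap k W (ϖ ^ l) = ∏ a ∈ Finset.range m, C.σ^[a] ν := by
  classical
  have hm := deg_pos hΔ
  have : NeZero m := ⟨hm.ne'⟩
  obtain ⟨⟨X, hX⟩, ϖ, hϖ⟩ := C.exists_X hW hΔ
  obtain ⟨Y, _, _, _, ρ, h1, h2⟩ := h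
  let ψ := AlgEquiv.ofBijective (bcf (E := W) X) (bcf_bij hΔ X)
  let G : Fin l → (Matrix (Fin m) (Fin m) W →ₐ[W] Module.End W (W ⊗[k] Y)) := fun i =>
    (bcA W (ρ i)).comp (ψ.symm : Matrix (Fin m) (Fin m) W →ₐ[W] W ⊗[k] Δ)
  have hG : ∀ i j, i ≠ j → ∀ a b, Commute (G i a) (G j b) := fun i j hij a b =>
    bcA_comm (h2 i j hij) _ _
  have hGX : ∀ i x, G i (X x) = (ρ i x).baseChange W := by
    intro i x
    have h3 : ψ.symm (X x) = 1 ⊗ₜ x := by
      rw [AlgEquiv.symm_apply_eq]
      exact (bcf_one_tmul (E := W) X x).symm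
    change bcA W (ρ i) (ψ.symm (X x)) = _
    rw [h3, bcA_tmul, one_smul]
  have hMU := fun i => mu_of_hom (G i : Matrix (Fin m) (Fin m) W →+* Module.End W (W ⊗[k] Y))
  have h3 := corner_all (fun i a b => G i (Matrix.single a b 1)) hMU
    (fun i j hij a b c d => hG i j hij _ _) 0
  set U : Submodule W (W ⊗[k] Y) := ⨅ i, fx (G i (Matrix.single 0 0 1)) with hUd
  have hU1 : finrank W U = 1 := by
    rw [Module.finrank_baseChange, h1, Fintype.card_fin] at h3
    exact (Nat.eq_of_mul_eq_mul_left (pow_pos hm l) ((mul_one _).trans h3)).symm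
  have hU : ∀ y, y ∈ U ↔ ∀ i w, (ρ i (C.ι w)).baseChange W y = w • y := by
    intro y
    simp only [hUd, Submodule.mem_iInf, mem_fx]
    refine forall_congr' fun i => ⟨fun hy w => ?_, fun hy => ?_⟩
    · have h4 : X (C.ι w) * Matrix.single 0 0 1 = w • Matrix.single 0 0 1 := by
        rw [hX]
        ext a b
        rw [Matrix.diagonal_mul, Matrix.smul_apply, Matrix.single_apply]
        split_ifs with h5
        · rw [← h5.1]
          rfl
        · simp
      have h5 := congrArg (fun M => G i M y) h4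
      simp only [map_mul, map_smul, Module.End.mul_apply, LinearMap.smul_apply] at h5
      rw [hy, hGX] at h5
      exact h5
    · have h4 := (hMU i).sum_app y
      rw [Finset.sum_eq_single 0] at h4
      · exact h4
      · intro a _ ha
        have h5 : Matrix.single a a 1 * X (C.ι C.ω) =
            C.σ^[(a : ℕ)] C.ω • Matrix.single a a (1 : W) := by
          rw [hX]
          ext b c
          rw [Matrix.mul_diagonal, Matrix.smul_apply, Matrix.single_apply]
          split_ifs with h5
          · rw [← h5.2, one_mul, smul_eq_mul, mul_one]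
          · simp
        have h6 := congrArg (fun M => G i M y) h5
        simp only [map_mul, map_smul, Module.End.mul_apply, LinearMap.smul_apply] at h6
        rw [hGX, hy, map_smul] at h6
        by_contra h7
        exact ha (Fin.ext (C.inj a 0 a.2 hm (smul_left_injective W h7 h6).symm))
      · intro h5
        exact absurd (Finset.mem_univ _) h5
  have hP : ∀ S : Finset (Fin l), ∃ Q : Module.End k Y,
      (∀ i ∈ S, ∀ w, Q * ρ i (C.ι w) = ρ i (C.ι (C.σ w)) * Q) ∧
      (∀ i ∉ S, ∀ x, Commute Q (ρ i x)) ∧ Q ^ m = algebraMap k _ (ϖ ^ S.card) := by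
    intro S
    induction S using Finset.induction_on with
    | empty => exact ⟨1, by simp, fun i _ x => Commute.one_left _, by simp⟩
    | insert j S hj ih =>
      obtain ⟨Q, q1, q2, q3⟩ := ih
      refine ⟨ρ j C.π * Q, fun i hi w => ?_, fun i hi x => ?_, ?_⟩
      · rcases Finset.mem_insert.mp hi with rfl | hi
        · rw [mul_assoc, (q2 i hj _).eq, ← mul_assoc, ← map_mul, C.hσ, map_mul, mul_assoc]
        · have hij : j ≠ i := fun h4 => hj (h4 ▸ hi)
          rw [mul_assoc, q1 i hi, ← mul_assoc, (h2 j i hij _ _).eq, mul_assoc]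
      · rw [Finset.mem_insert, not_or] at hi
        exact (h2 j i (Ne.symm hi.1) _ _).mul_left (q2 i hi.2 x)
      · rw [(q2 j hj _).symm.mul_pow, q3, ← map_pow, ← hϖ, AlgHom.commutes, ← map_mul,
          Finset.card_insert_of_notMem hj, pow_succ']
  obtain ⟨Q, q1, -, q3⟩ := hP Finset.univ
  rw [Finset.card_univ, Fintype.card_fin] at q3
  let P : Module.End k (W ⊗[k] Y) := TensorProduct.map C.σ.toLinearMap Q
  have hPs : ∀ (w : W) y, P (w • y) = C.σ w • P y := by
    intro w y
    induction y using TensorProduct.induction_on with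
    | zero => simp
    | add y z hy hz => rw [smul_add, map_add, map_add, smul_add, hy, hz]
    | tmul s y =>
      simp only [P, TensorProduct.smul_tmul', TensorProduct.map_tmul, smul_eq_mul,
        AlgHom.toLinearMap_apply, map_mul]
  have hPc : ∀ f g : Module.End k Y, Q * f = g * Q → ∀ y,
      P (f.baseChange W y) = g.baseChange W (P y) := by
    intro f g hfg y
    induction y using TensorProduct.induction_on with
    | zero => simp
    | add y z hy hz => rw [map_add, map_add, map_add, map_add, hy, hz]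
    | tmul s y =>
      have h4 := congrArg (fun F : Module.End k Y => F y) hfg
      simp only [Module.End.mul_apply] at h4
      simp only [P, LinearMap.baseChange_tmul, TensorProduct.map_tmul, h4]
  have hPU : ∀ y ∈ U, P y ∈ U := by
    intro y hy
    rw [hU] at hy ⊢
    intro i w'
    obtain ⟨w, rfl⟩ : ∃ w, C.σ w = w' := by
      refine ⟨C.σ^[m - 1] w', ?_⟩
      rw [← Function.iterate_succ_apply' C.σ, Nat.succ_eq_add_one, Nat.sub_add_cancel hm, C.per]
    rw [← hPc _ _ (q1 i (Finset.mem_univ _) w), hy, hPs]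
  have hPm : ∀ y, (P ^ m) y = algebraMap k W (ϖ ^ l) • y := by
    intro y
    rw [TensorProduct.map_pow, q3]
    induction y using TensorProduct.induction_on with
    | zero => simp
    | add y z hy hz => rw [map_add, smul_add, hy, hz]
    | tmul s y =>
      rw [TensorProduct.map_tmul, Module.End.pow_apply, Module.algebraMap_end_apply,
        algebraMap_smul, TensorProduct.tmul_smul]
      congr 2
      exact C.per s
  obtain ⟨y, hyU, hy0, hy⟩ := exists_line U hU1
  obtain ⟨ν, hν'⟩ := hy _ (hPU _ hyU)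
  have hPa : ∀ (a : ℕ) (w : W) z, (P ^ a) (w • z) = C.σ^[a] w • (P ^ a) z := by
    intro a w z
    induction a with
    | zero => simp
    | succ a ih =>
      rw [pow_succ', Module.End.mul_apply, ih, hPs, Function.iterate_succ_apply',
        Module.End.mul_apply]
  have hPy : ∀ a : ℕ, (P ^ a) y = (∏ b ∈ Finset.range a, C.σ^[b] ν) • y := by
    intro a
    induction a with
    | zero => simp
    | succ a ih =>
      rw [pow_succ, Module.End.mul_apply, hν', hPa, ih, smul_smul, Finset.prod_range_succ,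
        mul_comm]
  refine ⟨ϖ, ν, hϖ, ?_⟩
  have h4 := (hPm y).symm.trans (hPy m)
  exact smul_left_injective W hy0 h4

end Cy

end Vale.Agent.P011N.Cl.K
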