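import Vale.Agent.P011N.Cl.T.BC
import Vale.Agent.P011N.Cl.K.Cor

/-!
The algebra of the endomorphisms which commute with a projective descent datum.
-/

open Module Equiv

namespace Vale.Agent.P011N.Cl.K

variable {F L : Type} [Field F] [NumberField F] [Field L] [Algebra L F] {Γ : Subgroup (Gl F)}

theorem finrank_fixed {V : Type} [AddCommGroup V] [Module F V] [Module L V] [IsScalarTower L F V]
    [FiniteDimensional F V] (hL : ∀ x : F, Fx Γ x ↔ x ∈ Set.range (algebraMap L F))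
    (a : Gl F → V → V) (hs : ∀ γ ∈ Γ, Semi γ (a γ))
    (hm : ∀ γ ∈ Γ, ∀ δ ∈ Γ, ∀ x, a (γ * δ) x = a γ (a δ x)) (h1 : ∀ x, a 1 x = x)
    (U : Submodule L V) (hU : ∀ x, x ∈ U ↔ ∀ γ ∈ Γ, a γ x = x) :
    finrank L U = finrank F V ∧ FiniteDimensional L U := by
  obtain ⟨s, hs1, hs2, hs3⟩ := exists_linearIndependent F {x | ∀ γ ∈ Γ, a γ x = x}
  rw [span_fixed a hs hm h1] at hs2
  let b : Basis s F V := Basis.mk hs3 (by rw [Subtype.range_coe_subtype]; exact hs2.ge)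
  have hb : ∀ i, b i = i := fun i => Basis.mk_apply _ _ i
  have : Finite s := Module.Finite.finite_basis b
  have := Fintype.ofFinite s
  let c : s → U := fun i => ⟨i, (hU _).mpr (hs1 i.2)⟩
  have hli : LinearIndependent L c :=
    LinearIndependent.of_comp U.subtype (hs3.restrict_scalars' L)
  have hsp : ⊤ ≤ Submodule.span L (Set.range c) := by
    intro x _
    have h2 : ∀ i, b.repr x i ∈ Set.range (algebraMap L F) := by
      intro i
      rw [← hL]
      intro γ hγ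
      have h3 := (hU _).mp x.2 γ hγ
      have h4 : a γ x = ∑ j, γ (b.repr x j) • b j := by
        conv_lhs => rw [← b.sum_repr x, (hs γ hγ).sum]
        refine Finset.sum_congr rfl fun j _ => ?_
        rw [(hs γ hγ).smul, hb, hs1 j.2 γ hγ]
      have h5 := congrArg (fun y => b.repr y i) (h4.symm.trans h3)
      simpa only [b.repr_sum_self] using h5
    choose t ht using h2
    have h3 : x = ∑ i, t i • c i := by
      apply Subtype.ext
      rw [← b.sum_repr x, Submodule.coe_sum]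
      refine Finset.sum_congr rfl fun j _ => ?_
      rw [← ht, algebraMap_smul, hb]
      rfl
    rw [h3]
    exact Submodule.sum_mem _ fun i _ => Submodule.smul_mem _ _ (Submodule.subset_span ⟨i, rfl⟩)
  exact ⟨by rw [finrank_eq_card_basis (Basis.mk hli hsp), finrank_eq_card_basis b],
    Module.Finite.of_basis (Basis.mk hli hsp)⟩

variable {W : Type} [AddCommGroup W] [Module F W] {Ψ : Subgroup (Perm W)}

/-- A projective descent datum, with its ground field. -/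
structure PD (L : Type) [Field L] [Algebra L F] (Γ : Subgroup (Gl F)) (Ψ : Subgroup (Perm W)) :
    Prop where
  fix : ∀ x : F, Fx Γ x ↔ x ∈ Set.range (algebraMap L F)
  ov : Over Γ Ψ
  lin : ∀ ψ ∈ Ψ, Semi (id : F → F) ψ → ∃ c : F, ∀ x, ψ x = c • x

theorem PD.rel (h : PD L Γ Ψ) {γ : Gl F} {φ ψ : Perm W} (hφ : φ ∈ Ψ) (hψ : ψ ∈ Ψ)
    (h1 : Semi γ φ) (h2 : Semi γ ψ) : ∃ c : F, ∀ x, ψ x = φ (c • x) := by
  have h3 := h1.inv.mul h2
  rw [inv_mul_cancel] at h3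
  obtain ⟨c, hc⟩ := h.lin _ (Ψ.mul_mem (Ψ.inv_mem hφ) hψ) h3
  exact ⟨c, fun x => by rw [← hc]; simp⟩

theorem PD.act (h : PD L Γ Ψ) : ∃ a : Gl F → Module.End F W → Module.End F W,
    (∀ γ ∈ Γ, Semi γ (a γ)) ∧ (∀ γ ∈ Γ, ∀ δ ∈ Γ, ∀ x, a (γ * δ) x = a γ (a δ x)) ∧
    (∀ x, a 1 x = x) ∧ ∀ X, (∀ ψ ∈ Ψ, ∀ x, ψ (X x) = X (ψ x)) ↔ ∀ γ ∈ Γ, a γ X = X := by
  have key : ∀ γ : Gl F, ∃ f : Module.End F W → Module.End F W, γ ∈ Γ → ∀ ψ ∈ Ψ, Semi γ ψ →
      ∀ X x, f X (ψ x) = ψ (X x) := by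
    intro γ
    by_cases hγ : γ ∈ Γ
    · obtain ⟨φ, h1, h2⟩ := h.ov.onto γ hγ
      have h3 : ∀ X : Module.End F W, Semi (id : F → F) ((φ ∘ X) ∘ ⇑φ⁻¹) := fun X => by
        have h4 := (h2.comp_lin (semi_lin X)).comp h2.inv
        rwa [mul_inv_cancel] at h4
      refine ⟨fun X => (h3 X).lin, fun _ ψ h4 h5 X x => ?_⟩
      obtain ⟨c, hc⟩ := h.rel h1 h4 h2 h5
      change φ (X (φ.symm (ψ x))) = _
      rw [hc, hc, Equiv.symm_apply_apply, map_smul]
    · exact ⟨id, fun h1 => absurd h1 hγ⟩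
  choose a ha using key
  refine ⟨a, fun γ hγ t X Y => ?_, fun γ hγ δ hδ X => ?_, fun X => ?_, fun X =>
    ⟨fun hX γ hγ => ?_, fun hX ψ hψ x => ?_⟩⟩
  · obtain ⟨φ, h1, h2⟩ := h.ov.onto γ hγ
    ext x
    obtain ⟨x, rfl⟩ := φ.surjective x
    rw [LinearMap.add_apply, LinearMap.smul_apply, ha γ hγ φ h1 h2, ha γ hγ φ h1 h2,
      ha γ hγ φ h1 h2, ← h2]
    rfl
  · obtain ⟨φ, h1, h2⟩ := h.ov.onto γ hγ
    obtain ⟨ψ, h3, h4⟩ := h.ov.onto δ hδ
    ext x
    obtain ⟨x, rfl⟩ := (φ * ψ).surjective x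
    rw [ha _ (Γ.mul_mem hγ hδ) _ (Ψ.mul_mem h1 h3) (h2.mul h4), Perm.mul_apply, Perm.mul_apply,
      ha γ hγ φ h1 h2, ha δ hδ ψ h3 h4]
  · ext x
    exact ha 1 Γ.one_mem 1 Ψ.one_mem semi_id X x
  · obtain ⟨φ, h1, h2⟩ := h.ov.onto γ hγ
    ext x
    obtain ⟨x, rfl⟩ := φ.surjective x
    rw [ha γ hγ φ h1 h2, hX φ h1]
  · obtain ⟨γ, h1, h2⟩ := h.ov.semi ψ hψ
    rw [← ha γ h1 ψ hψ h2, hX γ h1]

variable [Module L W] [IsScalarTower L F W]

/-- The endomorphisms which commute with the descent datum. -/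
def PD.E (h : PD L Γ Ψ) : Subalgebra L (Module.End F W) where
  carrier := {X | ∀ ψ ∈ Ψ, ∀ x, ψ (X x) = X (ψ x)}
  mul_mem' := fun {X Y} hX hY ψ hψ x => by
    rw [Module.End.mul_apply, Module.End.mul_apply, hX ψ hψ, hY ψ hψ]
  add_mem' := fun {X Y} hX hY ψ hψ x => by
    obtain ⟨γ, -, h2⟩ := h.ov.semi ψ hψ
    rw [LinearMap.add_apply, LinearMap.add_apply, h2.add, hX ψ hψ, hY ψ hψ]
  algebraMap_mem' := fun c ψ hψ x => by
    obtain ⟨γ, h1, h2⟩ := h.ov.semi ψ hψ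
    rw [Module.algebraMap_end_apply, Module.algebraMap_end_apply, ← algebraMap_smul F c x,
      h2.smul, (h.fix _).mpr ⟨c, rfl⟩ γ h1, algebraMap_smul]

theorem PD.mem_E (h : PD L Γ Ψ) {X : Module.End F W} :
    X ∈ h.E ↔ ∀ ψ ∈ Ψ, ∀ x, ψ (X x) = X (ψ x) := Iff.rfl

theorem PD.span_E (h : PD L Γ Ψ) : Submodule.span F (h.E : Set (Module.End F W)) = ⊤ := by
  obtain ⟨a, h1, h2, h3, h4⟩ := h.act
  rw [← span_fixed a h1 h2 h3]
  congr 1
  ext X
  exact h4 X

variable [FiniteDimensional F W]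

theorem PD.finrank_E (h : PD L Γ Ψ) :
    finrank L h.E = finrank F W ^ 2 ∧ FiniteDimensional L h.E := by
  obtain ⟨a, h1, h2, h3, h4⟩ := h.act
  have h5 := finrank_fixed h.fix a h1 h2 h3 (Subalgebra.toSubmodule h.E) h4
  rw [Module.finrank_linearMap, ← pow_two] at h5
  exact h5

theorem PD.central [Nontrivial W] (h : PD L Γ Ψ) : Algebra.IsCentral L h.E := by
  refine ⟨fun z hz => ?_⟩
  rw [Subalgebra.mem_center_iff] at hz
  have h1 : (z : Module.End F W) ∈ Subalgebra.center F (Module.End F W) := by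
    rw [Subalgebra.mem_center_iff]
    intro X
    have hX : X ∈ Submodule.span F (h.E : Set (Module.End F W)) := h.span_E ▸ Submodule.mem_top
    induction hX using Submodule.span_induction with
    | mem Y hY => exact congrArg Subtype.val (hz ⟨Y, hY⟩)
    | zero => simp
    | add Y Z _ _ hY hZ => rw [add_mul, mul_add, hY, hZ]
    | smul c Y _ hY => rw [smul_mul_assoc, mul_smul_comm, hY]
  rw [Algebra.IsCentral.center_eq_bot] at h1
  obtain ⟨c, hc⟩ := Algebra.mem_bot.mp h1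
  obtain ⟨x, hx⟩ := exists_ne (0 : W)
  obtain ⟨t, rfl⟩ := (h.fix c).mp fun γ hγ => by
    obtain ⟨φ, h2, h3⟩ := h.ov.onto γ hγ
    have h4 := z.2 φ h2 x
    rw [← hc, Module.algebraMap_end_apply, Module.algebraMap_end_apply, h3.smul] at h4
    exact smul_left_injective F (h3.ne_zero hx) h4
  refine Algebra.mem_bot.mpr ⟨t, Subtype.ext ?_⟩
  rw [← hc]
  ext y
  rw [Module.algebraMap_end_apply, algebraMap_smul]
  rfl

theorem PD.simple [Nontrivial W] (h : PD L Γ Ψ) : IsSimpleRing h.E := by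
  classical
  obtain ⟨a, h1, h2, h3, h4⟩ := h.act
  have : Nonempty (Fin (finrank F W)) := ⟨⟨0, finrank_pos⟩⟩
  have hS : IsSimpleRing (Module.End F W) :=
    IsSimpleRing.of_ringEquiv (LinearMap.toMatrixAlgEquiv (finBasis F W)).symm.toRingEquiv
      inferInstance
  refine IsSimpleRing.of_eq_bot_or_eq_top fun I => ?_
  rw [or_iff_not_imp_left]
  intro hI
  let J : Submodule F (Module.End F W) := Submodule.span F {Y | ∃ y ∈ I, y.1 = Y}
  have hJ : ∀ X, ∀ Y ∈ J, X * Y ∈ J ∧ Y * X ∈ J := by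
    intro X Y hY
    have hX : X ∈ Submodule.span F (h.E : Set (Module.End F W)) := h.span_E ▸ Submodule.mem_top
    induction hX using Submodule.span_induction with
    | mem X hX =>
      induction hY using Submodule.span_induction with
      | mem Y hY =>
        obtain ⟨y, hy, rfl⟩ := hY
        exact ⟨Submodule.subset_span ⟨_, I.mul_mem_left ⟨X, hX⟩ y hy, rfl⟩,
          Submodule.subset_span ⟨_, I.mul_mem_right y ⟨X, hX⟩ hy, rfl⟩⟩
      | zero => simp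
      | add Y Z _ _ hY hZ =>
        rw [mul_add, add_mul]
        exact ⟨J.add_mem hY.1 hZ.1, J.add_mem hY.2 hZ.2⟩
      | smul c Y _ hY =>
        rw [smul_mul_assoc, mul_smul_comm]
        exact ⟨J.smul_mem c hY.1, J.smul_mem c hY.2⟩
    | zero => simp
    | add X Z _ _ hX hZ =>
      rw [mul_add, add_mul]
      exact ⟨J.add_mem hX.1 hZ.1, J.add_mem hX.2 hZ.2⟩
    | smul c X _ hX =>
      rw [smul_mul_assoc, mul_smul_comm]
      exact ⟨J.smul_mem c hX.1, J.smul_mem c hX.2⟩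
  let J' : TwoSidedIdeal (Module.End F W) := TwoSidedIdeal.mk' J J.zero_mem J.add_mem J.neg_mem
    (fun hy => (hJ _ _ hy).1) fun hx => (hJ _ _ hx).2
  have hJ' : ∀ X, X ∈ J' ↔ X ∈ J := fun X => TwoSidedIdeal.mem_mk' _ _ _ _ _ _ X
  obtain ⟨y, hy, hy0⟩ := SetLike.exists_of_lt (bot_lt_iff_ne_bot.mpr hI : ⊥ < I)
  have h5 : (1 : Module.End F W) ∈ J := (hJ' 1).mp (IsSimpleRing.one_mem_of_ne_zero_mem J'
    (x := y.1) (fun h5 => hy0 ((TwoSidedIdeal.mem_bot _).mpr (Subtype.ext h5)))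
    ((hJ' _).mpr (Submodule.subset_span ⟨y, hy, rfl⟩)))
  have h6 : ∀ Y ∈ J, ∀ t : F, ∃ z ∈ I, z.1 = ∑ γ : Γ, a γ (t • Y) := by
    intro Y hY
    induction hY using Submodule.span_induction with
    | mem Y hY =>
      obtain ⟨z, hz, rfl⟩ := hY
      intro t
      obtain ⟨c, hc⟩ := (h.fix (∑ γ : Γ, γ.1 t)).mp fun δ hδ => by
        rw [map_sum]
        exact Fintype.sum_equiv (Equiv.mulLeft (⟨δ, hδ⟩ : Γ)) _ _ fun γ => rfl
      refine ⟨algebraMap L _ c * z, I.mul_mem_left _ _ hz, ?_⟩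
      rw [← Algebra.smul_def, Subalgebra.coe_smul, ← algebraMap_smul F c, hc, Finset.sum_smul]
      exact Finset.sum_congr rfl fun γ _ => by rw [(h1 _ γ.2).smul, (h4 _).mp z.2 _ γ.2]
    | zero => exact fun t => ⟨0, I.zero_mem, by simp [fun γ : Γ => (h1 _ γ.2).zero]⟩
    | add Y Z _ _ hY hZ =>
      intro t
      obtain ⟨y, q1, q2⟩ := hY t
      obtain ⟨z, q3, q4⟩ := hZ t
      refine ⟨y + z, I.add_mem q1 q3, ?_⟩
      rw [Subalgebra.coe_add, q2, q4, ← Finset.sum_add_distrib]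
      exact Finset.sum_congr rfl fun γ _ => by rw [smul_add, (h1 _ γ.2).add]
    | smul c Y _ hY =>
      intro t
      rw [smul_smul]
      exact hY _
  obtain ⟨z, q1, q2⟩ := h6 1 h5 (Fintype.card Γ : F)⁻¹
  have q3 : z = 1 := by
    apply Subtype.ext
    rw [q2, Finset.sum_congr rfl fun γ _ => (h1 _ γ.2).smul _ _]
    simp only [map_inv₀, map_natCast, fun γ : Γ => (h4 1).mp h.E.one_mem _ γ.2]
    rw [Finset.sum_const, Finset.card_univ, ← Nat.cast_smul_eq_nsmul F, smul_smul,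
      mul_inv_cancel₀ (Nat.cast_ne_zero.mpr Fintype.card_ne_zero), one_smul]
    rfl
  exact (TwoSidedIdeal.one_mem_iff I).mp (q3 ▸ q1)

end Vale.Agent.P011N.Cl.K
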