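import Vale.Agent.P011N.Cl.K.Rea
import Vale.Agent.P011.Tpl.H359.Abhn

/-!
Splitting fields of division algebras of exponent two or three over number fields.
-/

open Module Polynomial NumberField IsDedekindDomain TensorProduct

namespace Vale.Agent.P011N.Cl.K

open Vale.Agent.P011.W Vale.Agent.P011.Even Vale.Agent.P011.Even.LocDiv

theorem spl_up {F D E : Type} [Field F] [DivisionRing D] [Algebra F D] [Field E] [Algebra F E]
    {n q d : ℕ} {Δ : Type} [DivisionRing Δ] [Algebra E Δ]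
    (ψ : E ⊗[F] D ≃ₐ[E] Matrix (Fin n) (Fin n) Δ) (hnq : n * q = d) {R : Type} [Field R]
    (φ : E →+* R) (h : Spl Δ q φ) : Spl D d (φ.comp (algebraMap F E)) := by
  let _ : Algebra E R := φ.toAlgebra
  let _ : Algebra F R := (φ.comp (algebraMap F E)).toAlgebra
  have : IsScalarTower F E R := IsScalarTower.of_algebraMap_eq fun x => rfl
  obtain ⟨f⟩ := (spl_iff (F := E) (R := R)).mp h
  exact (spl_iff (F := F) (R := R)).mpr (spl_of_part ψ hnq f)

theorem eval_close {k : Type} [NormedField k] [IsUltrametricDist k] {p : k[X]}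
    (hc : ∀ i, ‖p.coeff i‖ ≤ 1) {x y : k} (hx : ‖x‖ ≤ 1) (hy : ‖y‖ ≤ 1) (h : ‖x - y‖ < 1) :
    ‖p.eval x - p.eval y‖ < 1 := by
  rw [eval_eq_sum_range, eval_eq_sum_range, ← Finset.sum_sub_distrib]
  refine norm_sum_lt' _ _ one_pos fun i _ => ?_
  rw [← mul_sub, norm_mul]
  exact mul_lt_one_of_nonneg_of_lt_one_right (hc i) (norm_nonneg _) (pow_close hx hy h i)

variable {L : Type} [Field L] [NumberField L]

/-- The polynomial has no root in the completion, for a reason which the valuation detects. -/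
def IrrV (w : HeightOneSpectrum (𝓞 L)) (l : ℕ) (p : L[X]) : Prop :=
  p.Monic ∧ p.natDegree = l ∧ (((∀ i, w.valuation L (p.coeff i) ≤ 1) ∧
      ∀ x : 𝓞 L, ¬ w.valuation L (p.eval (x : L)) < 1) ∨
    (l = 2 ∧ ∃ a : L, p = X ^ 2 - C a ∧ ∀ c : L, w.valuation L a ≠ w.valuation L c ^ 2))

theorem IrrV.irr {w : HeightOneSpectrum (𝓞 L)} {l : ℕ} {p : L[X]} (h : IrrV w l p) :
    Irr l (p.map (algebraMap L (w.adicCompletion L))) := by
  have hU := isUltra w
  obtain ⟨h1, h2, h3⟩ := h
  refine ⟨h1.map _, by rw [h1.natDegree_map, h2], ?_⟩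
  rcases h3 with ⟨h3, h4⟩ | ⟨h3, a, rfl, h4⟩
  · have hc : ∀ i, ‖(p.map (algebraMap L (w.adicCompletion L))).coeff i‖ ≤ 1 := fun i => by
      rw [coeff_map, norm_le_one_iff, valued_alg]
      exact h3 i
    refine Or.inl ⟨hc, fun x hx h5 => ?_⟩
    obtain ⟨y, hy⟩ := dense w x 1 one_pos
    have hy1 : ‖algebraMap L (w.adicCompletion L) y‖ ≤ 1 := by
      have h6 := norm_sub_le_trans (a := algebraMap L (w.adicCompletion L) y) (b := x) (c := 0)
        (r := 1) (by rw [norm_sub_rev]; exact hy.le) (by rwa [sub_zero])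
      rwa [sub_zero] at h6
    rw [norm_le_one_iff, valued_alg] at hy1
    obtain ⟨z, hz⟩ := w.exists_valuation_sub_lt_of_integer hy1 1
    have hz1 : ‖algebraMap L (w.adicCompletion L) (z : L)‖ ≤ 1 := by
      rw [norm_le_one_iff, valued_alg]
      exact w.valuation_le_one z
    have hz2 : ‖algebraMap L (w.adicCompletion L) (z : L) - x‖ < 1 := by
      refine norm_sub_lt_trans (b := algebraMap L (w.adicCompletion L) y) ?_
        (by rwa [norm_sub_rev])
      rw [← map_sub, norm_lt_one_iff, valued_alg]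
      exact hz
    refine h4 z ?_
    have h6 := norm_sub_lt_trans (c := 0) (eval_close hc hz1 hx hz2) (by rwa [sub_zero])
    rwa [sub_zero, eval_map_algebraMap, aeval_algebraMap_apply, coe_aeval_eq_eval,
      norm_lt_one_iff, valued_alg] at h6
  · refine Or.inr ⟨h3, algebraMap L _ a, by simp, fun c hc => ?_⟩
    obtain ⟨y, hy⟩ := w.valuation_surjective L (Valued.v c)
    apply h4 y
    rw [hy, ← valued_alg, ← map_pow]
    rw [← norm_pow] at hc
    exact le_antisymm ((norm_le_iff w _ _).mp hc.le) ((norm_le_iff w _ _).mp hc.ge)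

theorem IrrV.no_root {w : HeightOneSpectrum (𝓞 L)} {l : ℕ} {p : L[X]} (h : IrrV w l p)
    (hl : l.Prime) (hl3 : l ≤ 3) (x : L) : p.eval x ≠ 0 := by
  intro hx
  have hU := isUltra w
  have h1 := h.irr.irreducible hl hl3
  have h2 := degree_eq_one_of_irreducible_of_root h1
    (x := algebraMap L (w.adicCompletion L) x) (by
      rw [IsRoot, eval_map_algebraMap, aeval_algebraMap_apply, coe_aeval_eq_eval, hx, map_zero])
  have h3 := natDegree_eq_of_degree_eq_some h2
  rw [h.irr.2.1] at h3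
  exact hl.one_lt.ne' h3

theorem glob {D : Type} [DivisionRing D] [Algebra L D] [FiniteDimensional L D]
    [Algebra.IsCentral L D] {d l : ℕ} (hD : finrank L D = d ^ 2) (h : TP l L D d) (hl : l.Prime)
    (hl3 : l ≤ 3) : ∃ S : Set (HeightOneSpectrum (𝓞 L)), S.Finite ∧
      ∀ (E : Type) [Field E] [NumberField E] [Algebra L E],
        (∀ w ∈ S, ∃ (p : L[X]) (α : E), IrrV w l p ∧ aeval α p = 0) →
        (l = 3 ∨ IsEmpty (E →+* ℝ)) → Spl D d (algebraMap L E) := by
  obtain ⟨S, hS, hspl⟩ := spl_almost (deg_pos hD) hD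
  refine ⟨S, hS, fun E _ _ _ h1 h2 => Vale.Agent.P011.Tpl.H359.abhn_gen hD E (fun w' => ?_)
    fun _ φ => ?_⟩
  · obtain ⟨w, hw⟩ := Vale.Agent.P011.Arith.exists_below (F := L) w'
    by_cases hwS : w ∈ S
    · obtain ⟨p, α, hp, hα⟩ := h1 w hwS
      obtain ⟨g, hg⟩ := completion_map hw
      obtain ⟨n, q, _, Δ, _, _, _, _, ψ, hnq, hΔ⟩ := exists_part' hD (w.adicCompletion L)
      let _ := nnf w
      have hU := isUltra w
      have h3 : g.comp (algebraMap L (w.adicCompletion L)) = pl (F := L) E w' := RingHom.ext hg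
      have h4 := loc_spl hΔ ((h.bc _).part ψ hnq) hl hl3 hp.irr g
        (α := algebraMap E _ α) (by
          rw [eval₂_map, h3, ← hom_eval₂, ← aeval_def, hα, map_zero])
      rw [← h3]
      exact spl_up ψ hnq g h4
    · exact hspl w hwS E w' hw
  · rcases h2 with rfl | h2
    · let _ : Algebra L ℝ := (φ.comp (algebraMap L E)).toAlgebra
      obtain ⟨n, q, _, Δ, _, _, _, _, ψ, hnq, hΔ⟩ := exists_part' hD ℝ
      obtain rfl := real_spl hΔ ((h.bc _).part ψ hnq)
      exact spl_up ψ hnq (RingHom.id ℝ) (spl_one hΔ _)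
    · exact h2.elim φ

end Vale.Agent.P011N.Cl.K
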