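import Vale.Agent.P011N.Cl.K.Mul
import Vale.Agent.P011N.Cl.K.Cyc

/-!
The stable line over a splitting field of the algebra.
-/

open Module Equiv TensorProduct

namespace Vale.Agent.P011N.Cl.K

open Vale.Agent.P011.W
open Vale.Agent.P011S (bcf bcf_one_tmul)

variable {F L : Type} [Field F] [NumberField F] [Field L] [Algebra L F] {Γ : Subgroup (Gl F)}
  {W : Type} [AddCommGroup W] [Module F W] {Ψ : Subgroup (Perm W)} [Module L W]
  [IsScalarTower L F W] [FiniteDimensional F W]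

theorem PD.exists_div [Nontrivial W] (h : PD L Γ Ψ) :
    ∃ (r d : ℕ) (_ : NeZero r) (D : Type) (_ : DivisionRing D) (_ : Algebra L D)
      (_ : FiniteDimensional L D) (_ : Algebra.IsCentral L D)
      (_ : h.E ≃ₐ[L] Matrix (Fin r) (Fin r) D), r * d = finrank F W ∧ finrank L D = d ^ 2 := by
  have := h.simple
  have := h.central
  obtain ⟨h1, _⟩ := h.finrank_E
  have : IsArtinianRing h.E := IsArtinianRing.of_finite L _
  obtain ⟨r, hr, D, i1, i2, i3, ⟨ψ⟩⟩ :=
    IsSimpleRing.exists_algEquiv_matrix_divisionRing_finite L h.E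
  have hcen : Algebra.IsCentral L D := by
    refine ⟨fun c hc => ?_⟩
    rw [Subalgebra.mem_center_iff] at hc
    have h2 : ψ.symm (Matrix.scalar (Fin r) c) ∈ Subalgebra.center L h.E := by
      rw [Subalgebra.mem_center_iff]
      intro x
      apply ψ.injective
      rw [map_mul, map_mul, ψ.apply_symm_apply]
      ext i j
      rw [Matrix.scalar_apply, Matrix.mul_diagonal, Matrix.diagonal_mul]
      exact hc _
    rw [Algebra.IsCentral.center_eq_bot] at h2
    obtain ⟨e, he⟩ := Algebra.mem_bot.mp h2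
    have h3 : Matrix.scalar (Fin r) c = algebraMap L (Matrix (Fin r) (Fin r) D) e := by
      rw [← ψ.apply_symm_apply (Matrix.scalar (Fin r) c), ← he]
      exact ψ.commutes e
    refine Algebra.mem_bot.mpr ⟨e, ?_⟩
    have h4 := congrFun (congrFun h3 0) 0
    rw [Matrix.scalar_apply, Matrix.diagonal_apply_eq, Matrix.algebraMap_matrix_apply,
      if_pos rfl] at h4
    exact h4.symm
  have h2 := ψ.toLinearEquiv.finrank_eq
  rw [h1, Module.finrank_matrix, Fintype.card_fin, ← pow_two] at h2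
  obtain ⟨d, hd⟩ : r ∣ finrank F W :=
    (Nat.pow_dvd_pow_iff two_ne_zero).mp ⟨_, h2⟩
  refine ⟨r, d, hr, D, i1, i2, i3, hcen, ψ, hd.symm, ?_⟩
  rw [hd, mul_pow] at h2
  exact (Nat.eq_of_mul_eq_mul_left (pow_pos (Nat.pos_of_ne_zero (NeZero.ne r)) 2) h2).symm

variable {F' W' : Type} [Field F'] [CharZero F'] [AddCommGroup W'] [Module F' W'] {ι : F →+* F'}
  {j : W → W'}

omit [FiniteDimensional F W] in
theorem exists_ext (hj : BC ι j) : ∃ f : Module.End F W →+* Module.End F' W',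
    ∀ X x, f X (j x) = j (X x) := by
  have h1 : ∀ X : Module.End F W, ∃ Y : Module.End F' W', ∀ x, Y (j x) = j (X x) := fun X => by
    obtain ⟨g, h2, h3⟩ := hj.exists_map hj (γ := 1) (γ' := 1) (semi_lin X) fun _ => rfl
    exact ⟨Semi.lin h2, h3⟩
  choose f hf using h1
  have h2 : ∀ Y Z : Module.End F' W', (∀ x, Y (j x) = Z (j x)) → Y = Z := fun Y Z h =>
    LinearMap.ext (hj.ext (γ' := 1) (semi_lin Y) (semi_lin Z) h)
  refine ⟨⟨⟨⟨f, h2 _ _ fun x => hf 1 x⟩, fun X Y => h2 _ _ fun x => ?_⟩, h2 _ _ fun x => ?_,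
    fun X Y => h2 _ _ fun x => ?_⟩, hf⟩
  · change f (X * Y) (j x) = f X (f Y (j x))
    rw [hf, hf, hf, Module.End.mul_apply]
  · change f 0 (j x) = 0
    rw [hf, LinearMap.zero_apply, hj.zero]
  · change f (X + Y) (j x) = f X (j x) + f Y (j x)
    rw [hf, hf, hf, LinearMap.add_apply, hj.add]

omit [FiniteDimensional F W] in
theorem PD.line (h : PD L Γ Ψ) {r d : ℕ} [NeZero r] {D : Type} [DivisionRing D] [Algebra L D]
    [FiniteDimensional L D] [Algebra.IsCentral L D] (e : h.E ≃ₐ[L] Matrix (Fin r) (Fin r) D)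
    (hrd : r * d = finrank F W) (hD : finrank L D = d ^ 2) (hj : BC ι j) {M : Type} [Field M]
    [Algebra L M] (κ : M →+* F') (hκ : ∀ c : L, κ (algebraMap L M c) = ι (algebraMap L F c))
    (hs : Spl D d (algebraMap L M)) :
    ∃ y : W', y ≠ 0 ∧ ∀ (φ' : Perm W') (γ' : Gl F'), (∀ c, γ' (κ c) = κ c) → Semi γ' φ' →
      (∃ ψ ∈ Ψ, ∀ x, φ' (j x) = j (ψ x)) → ∃ c : F', φ' y = c • y := by
  have := hj.fin'
  have hd := deg_pos hD
  have : NeZero d := ⟨hd.ne'⟩
  obtain ⟨f, hf⟩ := exists_ext hj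
  obtain ⟨g⟩ := spl_iff.mp hs
  let _ : Algebra M (Module.End F' W') := ((algebraMap F' _).comp κ).toAlgebra'
    fun c X => Algebra.commutes _ _
  let _ : Algebra L (Module.End F' W') := (((algebraMap F' _).comp κ).comp
    (algebraMap L M)).toAlgebra' fun c X => Algebra.commutes _ _
  have : IsScalarTower L M (Module.End F' W') := IsScalarTower.of_algebraMap_eq fun _ => rfl
  let G₁ : Matrix (Fin r) (Fin r) D →+* Module.End F' W' :=
    (f.comp (h.E.val : h.E →+* Module.End F W)).comp (e.symm : Matrix (Fin r) (Fin r) D →+* h.E)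
  have hG₁ : ∀ A x, G₁ A (j x) = j ((e.symm A).1 x) := fun A x => hf _ x
  let δ : D →ₐ[L] Module.End F' W' :=
    { G₁.comp (Matrix.scalar (Fin r)) with
      commutes' := fun c => by
        refine LinearMap.ext (hj.ext (γ' := 1) (semi_lin _) (semi_lin _) fun x => ?_)
        change G₁ (algebraMap L _ c) (j x) = κ (algebraMap L M c) • j x
        rw [hG₁, AlgEquiv.commutes, hκ, ← hj.smul, algebraMap_smul]
        rfl }
  let ψ := AlgEquiv.ofBijective (bcf (E := M) g) (bcf_bij hD g)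
  let lf : M ⊗[L] D →ₐ[M] Module.End F' W' := AlgHom.liftEquiv L M D _ δ
  have hlf : ∀ c x y, lf (c ⊗ₜ x) y = κ c • G₁ (Matrix.scalar (Fin r) x) y := fun c x y => by
    rw [AlgHom.liftEquiv_tmul]
    rfl
  let G₂ : Matrix (Fin d) (Fin d) M →+* Module.End F' W' :=
    (lf : M ⊗[L] D →+* Module.End F' W').comp (ψ.symm : Matrix (Fin d) (Fin d) M →+* M ⊗[L] D)
  have hc : ∀ z y, G₁ (Matrix.single 0 0 1) (lf z y) = lf z (G₁ (Matrix.single 0 0 1) y) := by
    intro z y
    induction z using TensorProduct.induction_on with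
    | zero => simp
    | add z z' hz hz' => rw [map_add, LinearMap.add_apply, LinearMap.add_apply, map_add, hz, hz']
    | tmul c x =>
      rw [hlf, hlf, map_smul, ← Module.End.mul_apply, ← Module.End.mul_apply, ← map_mul,
        ← map_mul]
      congr 3
      ext a b
      rw [Matrix.scalar_apply, Matrix.mul_diagonal, Matrix.diagonal_mul, Matrix.single_apply]
      split_ifs <;> simp
  have h1 := (mu_of_hom G₁).corner 0 ⊤ fun _ _ _ _ => Submodule.mem_top
  have h2 := (mu_of_hom G₂).corner 0 (⊤ ⊓ fx (G₁ (Matrix.single 0 0 1))) fun a b x hx =>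
    ⟨Submodule.mem_top, by
      change G₁ _ (lf _ x) = lf _ x
      rw [hc, mem_fx.mp hx.2]⟩
  have h3 : finrank F' W' = r * d := by
    obtain ⟨n, b, b', -⟩ := hj.bas
    rw [hrd, finrank_eq_card_basis b, finrank_eq_card_basis b']
  rw [finrank_top, h3, h2, Fintype.card_fin, Fintype.card_fin, ← mul_assoc] at h1
  obtain ⟨y, hyU, hy0, hy⟩ := exists_line _ (Nat.eq_of_mul_eq_mul_left
    (Nat.mul_pos (Nat.pos_of_ne_zero (NeZero.ne r)) hd) ((mul_one _).trans h1)).symm
  refine ⟨y, hy0, fun φ' γ' q1 q2 ⟨φ, q3, q4⟩ => hy _ ?_⟩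
  have k1 : ∀ A y, φ' (G₁ A y) = G₁ A (φ' y) := fun A =>
    hj.ext (q2.comp_lin (semi_lin (G₁ A))) ((semi_lin (G₁ A)).lin_comp q2) fun x => by
      rw [hG₁, q4, q4, hG₁, (e.symm A).2 φ q3]
  have k2 : ∀ z y, φ' (lf z y) = lf z (φ' y) := by
    intro z y
    induction z using TensorProduct.induction_on with
    | zero => simpa using q2.zero
    | add z z' hz hz' => rw [map_add, LinearMap.add_apply, LinearMap.add_apply, q2.add, hz, hz']
    | tmul c x => rw [hlf, hlf, q2.smul, q1, k1]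
  refine ⟨⟨Submodule.mem_top, ?_⟩, ?_⟩
  · change G₁ _ (φ' y) = φ' y
    rw [← k1, mem_fx.mp hyU.1.2]
  · change lf _ (φ' y) = φ' y
    rw [← k2]
    exact congrArg φ' (mem_fx.mp hyU.2)

end Vale.Agent.P011N.Cl.K
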