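import Vale.Agent.P011.W.Root
import Vale.Agent.P011.Even.LocDivB

/-!
Polynomials which are irreducible in the residue field have a root in the unramified extension.
-/

open Module Polynomial

namespace Vale.Agent.P011N.Cl.K

open Vale.Agent.P011.W Vale.Agent.P011.Even.LocDiv

/-- A homomorphism which preserves the norm, on the valuation rings. -/
def onO {k W : Type} [NormedField k] [IsUltrametricDist k] [NormedField W] [IsUltrametricDist W]
    (f : k →+* W) (hf : ∀ x, ‖f x‖ = ‖x‖) : ringO k →+* ringO W :=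
  f.restrict (ringO k) (ringO W) fun x hx => by
    rw [mem_ringO, hf]
    exact hx

/-- A homomorphism which preserves the norm, on the residue fields. -/
def onR {k W : Type} [NormedField k] [IsUltrametricDist k] [NormedField W] [IsUltrametricDist W]
    (f : k →+* W) (hf : ∀ x, ‖f x‖ = ‖x‖) : Res k →+* Res W :=
  Ideal.quotientMap (idealM W) (onO f hf) fun x hx => by
    rw [Ideal.mem_comap, mem_idealM]
    change ‖f x‖ < 1
    rw [hf]
    exact hx

theorem onR_mk {k W : Type} [NormedField k] [IsUltrametricDist k] [NormedField W]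
    [IsUltrametricDist W] (f : k →+* W) (hf : ∀ x, ‖f x‖ = ‖x‖) (x : ringO k) :
    onR f hf (Ideal.Quotient.mk _ x) = Ideal.Quotient.mk _ (onO f hf x) := rfl

theorem root_unr {k W : Type} [NontriviallyNormedField k] [IsUltrametricDist k] [ProperSpace k]
    [NormedField W] [NormedAlgebra k W] [IsUltrametricDist W] [FiniteDimensional k W]
    (σ : W →ₐ[k] W) (hσ : ∀ w, ‖σ w‖ = ‖w‖) {l : ℕ} (hl : l.Prime) (hl3 : l ≤ 3)
    (per : ∀ w, σ^[l] w = w) {ω : W} (hω : ‖ω‖ ≤ 1) (hne : ¬ ‖σ ω - ω‖ < 1) {p : k[X]}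
    (hp : p.Monic) (hpl : p.natDegree = l) (hc : ∀ i, ‖p.coeff i‖ ≤ 1)
    (hno : ∀ x : k, ‖x‖ ≤ 1 → ¬ ‖p.eval x‖ < 1) : ∃ x : W, aeval x p = 0 := by
  have : ProperSpace W := FiniteDimensional.proper k W
  have ha : ∀ x : k, ‖algebraMap k W x‖ = ‖x‖ := norm_algebraMap' W
  let _ : Field (Res k) := Field.ofIsUnitOrEqZero (res_isUnit_or k)
  let _ : Field (Res W) := Field.ofIsUnitOrEqZero (res_isUnit_or W)
  let _ : Algebra (Res k) (Res W) := (onR (algebraMap k W) ha).toAlgebra
  have hal : ∀ x : ringO k, algebraMap (Res k) (Res W) (Ideal.Quotient.mk _ x) =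
      Ideal.Quotient.mk _ (onO (algebraMap k W) ha x) := fun _ => rfl
  let s : Res W →ₐ[Res k] Res W :=
    { onR (σ : W →+* W) hσ with
      commutes' := fun c => by
        obtain ⟨x, rfl⟩ := Ideal.Quotient.mk_surjective c
        change onR (σ : W →+* W) hσ (algebraMap (Res k) (Res W) _) = _
        rw [hal]
        refine (onR_mk (σ : W →+* W) hσ _).trans ?_
        congr 1
        exact Subtype.ext (σ.commutes x) }
  have hs : ∀ x : ringO W, s (Ideal.Quotient.mk _ x) =
      Ideal.Quotient.mk _ (onO (σ : W →+* W) hσ x) := fun _ => rfl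
  let s' : Res W ≃ₐ[Res k] Res W :=
    AlgEquiv.ofBijective s (Finite.injective_iff_bijective.mp s.toRingHom.injective)
  have hs' : ∀ (a : ℕ) (x : ringO W), ∃ y : ringO W, (y : W) = σ^[a] x ∧
      (s' ^ a) (Ideal.Quotient.mk _ x) = Ideal.Quotient.mk _ y := by
    intro a x
    induction a with
    | zero => exact ⟨x, rfl, rfl⟩
    | succ a ih =>
      obtain ⟨y, h1, h2⟩ := ih
      refine ⟨onO (σ : W →+* W) hσ y, ?_, ?_⟩
      · rw [Function.iterate_succ_apply', ← h1]
        rfl
      · rw [pow_succ', AlgEquiv.mul_apply, h2]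
        rfl
  have : Fact l.Prime := ⟨hl⟩
  have hord : orderOf s' = l := by
    refine orderOf_eq_prime ?_ ?_
    · ext c
      obtain ⟨x, rfl⟩ := Ideal.Quotient.mk_surjective c
      obtain ⟨y, h1, h2⟩ := hs' l x
      rw [h2, Subtype.ext (h1.trans (per x))]
      rfl
    · intro h1
      apply hne
      have h2 : s' (Ideal.Quotient.mk _ ⟨ω, hω⟩) = Ideal.Quotient.mk _ ⟨ω, hω⟩ := by
        rw [h1]
        rfl
      exact (Ideal.Quotient.eq.mp ((hs _).symm.trans h2) :)
  have hdvd : l ∣ finrank (Res k) (Res W) := by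
    rw [← IsGalois.card_aut_eq_finrank, ← hord]
    exact orderOf_dvd_natCard s'
  have hsub : (↑p.coeffs : Set k) ⊆ ringO k := by
    intro c hc'
    obtain ⟨i, -, rfl⟩ := mem_coeffs_iff.mp hc'
    exact hc i
  let p0 : (ringO k)[X] := p.toSubring (ringO k) hsub
  have hp0 : p0.map (ringO k).subtype = p := map_toSubring p _ hsub
  have hp0m : p0.Monic := (monic_toSubring p _ hsub).mpr hp
  let q : (Res k)[X] := p0.map (Ideal.Quotient.mk _)
  have hqm : q.Monic := hp0m.map _
  have hql : q.natDegree = l := by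
    rw [hp0m.natDegree_map, natDegree_toSubring, hpl]
  have hirr : Irreducible q := by
    refine irreducible_of_degree_le_three_of_not_isRoot ?_ ?_
    · rw [hql, Finset.mem_Icc]
      exact ⟨hl.one_le, hl3⟩
    · intro c hc'
      obtain ⟨x, rfl⟩ := Ideal.Quotient.mk_surjective c
      apply hno x x.2
      rw [IsRoot, eval_map, eval₂_hom, Ideal.Quotient.eq_zero_iff_mem, mem_idealM] at hc'
      rw [← hp0, eval_map]
      have h1 := eval₂_hom (ringO k).subtype x (p := p0)
      rw [Subring.subtype_apply] at h1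
      rw [h1]
      exact hc'
  have : Fact (Irreducible q) := ⟨hirr⟩
  obtain ⟨f⟩ := FiniteField.nonempty_algHom_of_finrank_dvd (F := Res k) (K := AdjoinRoot q)
    (L := Res W) (by
      rw [(AdjoinRoot.powerBasis hirr.ne_zero).finrank, AdjoinRoot.powerBasis_dim, hql]
      exact hdvd)
  have hr : aeval (f (AdjoinRoot.root q)) q = 0 := by
    rw [aeval_algHom_apply, AdjoinRoot.aeval_eq, AdjoinRoot.mk_self, map_zero]
  have : Finite (Res k) := inferInstance
  have hr' := (PerfectField.separable_of_irreducible hirr).aeval_derivative_ne_zero hr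
  obtain ⟨θ, hθ⟩ := Ideal.Quotient.mk_surjective (f (AdjoinRoot.root q))
  rw [← hθ] at hr hr'
  have key : ∀ g : (ringO k)[X], aeval (Ideal.Quotient.mk (idealM W) θ)
      (g.map (Ideal.Quotient.mk (idealM k))) = 0 ↔
      ‖((g.map (ringO k).subtype).map (algebraMap k W)).eval (θ : W)‖ < 1 := by
    intro g
    have h1 : aeval (Ideal.Quotient.mk (idealM W) θ) (g.map (Ideal.Quotient.mk (idealM k))) =
        Ideal.Quotient.mk (idealM W) (g.eval₂ (onO (algebraMap k W) ha) θ) := by
      rw [aeval_def, eval₂_map, hom_eval₂]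
      rfl
    have h2 : ((g.map (ringO k).subtype).map (algebraMap k W)).eval (θ : W) =
        (ringO W).subtype (g.eval₂ (onO (algebraMap k W) ha) θ) := by
      rw [Polynomial.map_map, eval_map, hom_eval₂]
      rfl
    rw [h1, h2, Ideal.Quotient.eq_zero_iff_mem, mem_idealM]
    rfl
  have h1 := (key p0).mp hr
  rw [derivative_map, Ne, key, ← derivative_map, ← derivative_map] at hr'
  rw [hp0] at h1 hr'
  obtain ⟨x, hx⟩ := exists_root (p.map (algebraMap k W)) (θ : W) (M := 1) (fun i => by
    have h2 := norm_taylor_le (p.map (algebraMap k W)) (T := 1) (C := 1) le_rfl θ.2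
      (fun i => by rw [coeff_map, ha]; exact hc i) le_rfl i
    rwa [one_pow, one_mul] at h2) (by
    rw [one_mul]
    exact h1.trans_le (one_le_pow₀ (not_lt.mp hr')))
  exact ⟨x, by rwa [eval_map_algebraMap] at hx⟩

end Vale.Agent.P011N.Cl.K
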