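import Vale.Agent.P011N.Cl.K.Cyc
import Vale.Agent.P011N.Cl.K.Unr
import Vale.Agent.P011.W.LocC

/-!
Local division algebras of prime exponent and their splitting fields.
-/

open Module Polynomial

namespace Vale.Agent.P011N.Cl.K

open Vale.Agent.P011.W Vale.Agent.P011.Even.LocDiv

section cyc

variable {k E : Type} [NontriviallyNormedField k] [NormedDivisionRing E] [NormedAlgebra k E]
  [IsUltrametricDist E] {R : Frame E} {W : Type} [Field W] [Algebra k W] (C : Cyc k E W R)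

/-- The abstract cyclic data. -/
def toCy : Cy k E W C.m where
  ι := C.ι
  σ := C.σ
  π := R.π
  π0 := R.π0
  hσ := C.hσ
  ω := C.ω
  inj := fun a b ha hb h => by
    by_contra hne
    have h1 := C.norm_ζ_sub hne ha hb
    rw [C.σ_ω, C.σ_ω] at h
    have h2 := congrArg C.ι h
    rw [map_pow, map_pow, C.hω] at h2
    rw [h2, sub_self, norm_zero] at h1
    exact zero_ne_one h1
  per := C.σ_m

theorem dvd_of_normW {y : W} {i : ℕ} (hi : ‖C.ι y‖ = ‖R.π‖ ^ i) : C.m ∣ i := by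
  apply C.dvd_of_fix
  set u : E := C.ι y * (R.π ^ i)⁻¹ with hu
  have hπi : R.π ^ i ≠ 0 := pow_ne_zero _ R.π0
  have hu1 : ‖u‖ = 1 := by
    rw [hu, norm_mul, norm_inv, hi, norm_pow, mul_inv_cancel₀]
    exact pow_ne_zero _ R.πpos.ne'
  have h1 : u * R.ζ ^ (R.j ^ i) = R.ζ * u := by
    apply mul_right_cancel₀ hπi
    have h2 : u * R.π ^ i = C.ι y := by
      rw [hu, inv_mul_cancel_right₀ hπi]
    rw [mul_assoc, ← pi_pow, ← mul_assoc, h2, mul_assoc, h2, ← C.hω, ← map_mul, ← map_mul,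
      mul_comm]
  have h3 := R.comm_mod hu1 (R.j ^ i)
  rw [h1] at h3
  have h4 : ‖(R.ζ - R.ζ ^ (R.j ^ i)) * u‖ < 1 := by rwa [sub_mul]
  rw [norm_mul, hu1, mul_one, norm_sub_rev] at h4
  have h5 := R.pow_inj (a := R.j ^ i) (b := 1) (by rwa [pow_one])
  rwa [pow_one] at h5

variable [CompleteSpace k] [FiniteDimensional k E] [Algebra.IsCentral k E] [FiniteDimensional k W]

theorem dims : finrank k W = C.m ∧ finrank k E = C.m ^ 2 := by
  obtain ⟨X, hX, hdim⟩ := C.exists_X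
  let Xa : E →ₐ[k] Matrix (Fin C.m) (Fin C.m) W :=
    { X with
      commutes' := fun c => by
        change X (algebraMap k E c) = _
        rw [← C.ι.commutes, hX]
        ext i j
        rw [Matrix.algebraMap_matrix_apply, Matrix.diagonal_apply, C.σ_alg] }
  rw [Module.finrank_fin_fun] at hdim
  have h1 : C.m ≤ finrank k W := by
    let s : Fin C.m → (W →ₐ[k] W) := fun i => C.σ ^ (i : ℕ)
    have hinj : Function.Injective s := by
      intro a b hab
      have h2 := congrArg (fun g : W →ₐ[k] W => g C.ω) hab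
      simp only [s, AlgHom.coe_pow] at h2
      exact Fin.ext ((toCy C).inj a b a.2 b.2 h2)
    have h2 := Nat.card_le_card_of_injective s hinj
    rw [Nat.card_eq_fintype_card, Fintype.card_fin] at h2
    exact h2.trans (card_algHom_le_finrank k W W)
  have h2 : finrank k E ≤ C.m * C.m := by
    have h3 := Vale.Agent.P011S.SF.split_indep C.m0 Xa (finBasis k E)
      (finBasis k E).linearIndependent
    have h4 := h3.fintype_card_le_finrank
    rw [Fintype.card_fin, Module.finrank_matrix, Fintype.card_fin, Module.finrank_self,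
      mul_one] at h4
    exact h4
  have h3 : finrank k W = C.m := by
    refine le_antisymm ?_ h1
    rw [← hdim] at h2
    exact Nat.le_of_mul_le_mul_left h2 C.m0
  exact ⟨h3, by rw [← hdim, h3, pow_two]⟩

theorem dvd_of_tp {l : ℕ} (h : TP l k E C.m) : C.m ∣ l := by
  obtain ⟨ϖ, ν, h1, h2⟩ := (toCy C).norm_eq (dims C).1 (dims C).2 h
  have h3 : ‖ϖ‖ = ‖R.π‖ ^ C.m := by
    rw [← norm_algebraMap' E ϖ, h1]
    exact norm_pow _ _
  have h4 := C.norm_N ν
  have h5 : C.N ν = algebraMap k W (ϖ ^ l) := h2.symm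
  rw [h5, C.norm_alg, norm_pow, h3, ← pow_mul, mul_comm, pow_mul] at h4
  exact dvd_of_normW C ((pow_left_inj₀ (by positivity) (norm_nonneg _) C.m0.ne').mp h4).symm

omit [Algebra.IsCentral k E] [CompleteSpace k] [FiniteDimensional k E] in
theorem root_cyc [IsUltrametricDist k] [ProperSpace k] (hl : C.m.Prime) (hl3 : C.m ≤ 3) {p : k[X]}
    (hp : p.Monic) (hpl : p.natDegree = C.m) (hc : ∀ i, ‖p.coeff i‖ ≤ 1)
    (hno : ∀ x : k, ‖x‖ ≤ 1 → ¬ ‖p.eval x‖ < 1) : ∃ x : E, aeval x p = 0 := by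
  let _ : NormedField W :=
    { (inferInstance : Field W), NormedAddCommGroup.induced W E C.ι C.inj with
      norm_mul := fun a b => by
        change ‖C.ι (a * b)‖ = ‖C.ι a‖ * ‖C.ι b‖
        rw [map_mul, norm_mul] }
  have hn : ∀ w : W, ‖w‖ = ‖C.ι w‖ := fun _ => rfl
  let _ : NormedAlgebra k W :=
    { (inferInstance : Algebra k W) with
      norm_smul_le := fun c x => by
        rw [hn, hn, map_smul, norm_smul] }
  have : IsUltrametricDist W := IsUltrametricDist.isUltrametricDist_of_forall_norm_add_le_max_norm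
    fun x y => by
      rw [hn, hn, hn, map_add]
      exact IsUltrametricDist.norm_add_le_max _ _
  obtain ⟨x, hx⟩ := root_unr C.σ (fun w => C.norm_σ 1 w) hl hl3 C.σ_m (ω := C.ω)
    (by have h1 := C.norm_ω 1; rw [pow_one] at h1; exact h1.le) (by
      have h1 := C.norm_ζ_sub (a := 1) (b := 0) one_ne_zero hl.one_lt C.m0
      have h2 : C.σ C.ω = C.ω ^ (R.j ^ 1) := C.σ_ω 1
      rw [hn, map_sub, h2, map_pow, C.hω]
      rw [pow_zero, pow_one R.ζ] at h1
      rw [h1]
      exact lt_irrefl _) hp hpl hc hno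
  exact ⟨C.ι x, by rw [aeval_algHom_apply, hx, map_zero]⟩

omit [Algebra.IsCentral k E] [FiniteDimensional k E] [FiniteDimensional k W] in
theorem sqrt_cyc [IsUltrametricDist k] [CharZero k] (hm : C.m = 2) {a : k}
    (h : ∀ c : k, ‖a‖ ≠ ‖c‖ ^ 2) : ∃ x : E, x ^ 2 = algebraMap k E a := by
  have ha : a ≠ 0 := by
    rintro rfl
    exact h 0 (by simp)
  obtain ⟨ϖ, hϖ⟩ := C.exists_ϖ
  rw [hm] at hϖ
  have hϖn : ‖ϖ‖ = ‖R.π‖ ^ 2 := by rw [← norm_algebraMap' E ϖ, hϖ, norm_pow]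
  have hϖ0 : ϖ ≠ 0 := by
    rw [← norm_ne_zero_iff, hϖn]
    exact pow_ne_zero _ R.πpos.ne'
  obtain ⟨i, hi⟩ := norm_eq_zpow R.π0 R.π1 R.πm (x := algebraMap k E a)
    ((_root_.map_ne_zero _).mpr ha)
  rw [norm_algebraMap'] at hi
  obtain ⟨t, ht⟩ := C.dvd_of_norm' hi
  have hat : ‖a‖ = ‖ϖ‖ ^ t := by rw [hi, ht, hϖn, hm, zpow_mul, zpow_natCast]
  obtain ⟨s, hs | hs⟩ := Int.even_or_odd' t
  · exact absurd (by rw [hat, hs, norm_zpow, mul_comm, zpow_mul, zpow_two, pow_two]) (h (ϖ ^ s))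
  set y : k := a / ϖ ^ t with hy
  have hy1 : ‖y‖ = 1 := by
    rw [hy, norm_div, norm_zpow, hat, div_self]
    exact zpow_ne_zero _ (norm_ne_zero_iff.mpr hϖ0)
  obtain ⟨n, hn⟩ := exists_pow_lt_of_lt_one (y := ‖R.π‖) (x := ‖(2 : k)‖ ^ 2)
    (pow_pos (norm_pos_iff.mpr two_ne_zero) 2) R.π1
  obtain ⟨w, c, hw, hc, hcy⟩ := C.unit_approx n y hy1
  have hc1 : ‖c‖ = 1 := by rw [← C.norm_alg, hc, C.norm_N, hw, one_pow]
  have hc0 : c ≠ 0 := by
    rw [← norm_ne_zero_iff, hc1]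
    exact one_ne_zero
  obtain ⟨e, he⟩ := exists_root (X ^ 2 - Polynomial.C (y / c)) 1 (M := 1) (fun i => by
    have h2 := norm_taylor_le (X ^ 2 - Polynomial.C (y / c)) (θ := 1) (T := 1) (C := 1) le_rfl
      norm_one.le (fun i => by
        rw [coeff_sub, coeff_X_pow, coeff_C]
        split_ifs with h3 h4 h4
        · omega
        · simp
        · rw [zero_sub, norm_neg, norm_div, hy1, hc1, div_one]
        · simp) le_rfl i
    rwa [one_pow, one_mul] at h2) (by
    have e1 : (X ^ 2 - Polynomial.C (y / c)).eval 1 = (c - y) / c := by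
      rw [eval_sub, eval_pow, eval_X, eval_C]
      field_simp
    have e2 : (derivative (X ^ 2 - Polynomial.C (y / c))).eval 1 = 2 := by
      simp
      norm_num
    rw [one_mul, e1, e2, norm_div, hc1, div_one]
    refine hcy.trans_lt (lt_of_le_of_lt ?_ hn)
    exact pow_le_pow_of_le_one (norm_nonneg _) R.π1.le (by omega))
  rw [eval_sub, eval_pow, eval_X, eval_C, sub_eq_zero] at he
  refine ⟨(e * ϖ ^ s) • (C.ι w * R.π), ?_⟩
  have h1 : (C.ι w * R.π) ^ 2 = algebraMap k E (c * ϖ) := by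
    have h2 : C.N w = w * C.σ w := by
      rw [Cyc.N, hm, Finset.prod_range_succ, Finset.prod_range_one]
      rfl
    rw [pow_two, mul_assoc, ← mul_assoc R.π, C.hσ, mul_assoc, ← mul_assoc, ← map_mul, ← h2, ← hc,
      C.ι.commutes, ← pow_two, ← hϖ, map_mul]
  rw [_root_.smul_pow, h1, Algebra.smul_def, ← map_mul]
  congr 1
  rw [mul_pow, he, hy, hs, zpow_add₀ hϖ0, zpow_one, mul_comm (2 : ℤ) s, zpow_mul, zpow_two]
  have := zpow_ne_zero s hϖ0
  field_simp

end cyc

/-- The polynomial has no root in the local field, for a reason which the norm detects. -/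
def Irr {k : Type} [NormedField k] (l : ℕ) (p : k[X]) : Prop :=
  p.Monic ∧ p.natDegree = l ∧ (((∀ i, ‖p.coeff i‖ ≤ 1) ∧ ∀ x : k, ‖x‖ ≤ 1 → ¬ ‖p.eval x‖ < 1) ∨
    (l = 2 ∧ ∃ a : k, p = X ^ 2 - C a ∧ ∀ c : k, ‖a‖ ≠ ‖c‖ ^ 2))

theorem Irr.irreducible {k : Type} [NormedField k] [IsUltrametricDist k] {l : ℕ} (hl : l.Prime)
    (hl3 : l ≤ 3) {p : k[X]} (h : Irr l p) : Irreducible p := by
  obtain ⟨h1, h2, h3⟩ := h
  refine irreducible_of_degree_le_three_of_not_isRoot ?_ fun x hx => ?_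
  · rw [h2, Finset.mem_Icc]
    exact ⟨hl.one_le, hl3⟩
  · rcases h3 with ⟨h3, h4⟩ | ⟨-, a, rfl, h4⟩
    · refine h4 x (norm_root_le h1 le_rfl h3 hx) ?_
      rw [hx.eq_zero, norm_zero]
      exact one_pos
    · rw [IsRoot, eval_sub, eval_pow, eval_X, eval_C, sub_eq_zero] at hx
      exact h4 x (by rw [← hx, norm_pow])

theorem spl_one {k Δ : Type} [Field k] [DivisionRing Δ] [Algebra k Δ] [FiniteDimensional k Δ]
    (h : finrank k Δ = 1 ^ 2) {M : Type} [Field M] (φ : k →+* M) : Spl Δ 1 φ := by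
  have h1 := (spl_of_maxfield h (finrank_self k) (Algebra.ofId k Δ)).comp φ
  rwa [Algebra.algebraMap_self, RingHom.comp_id] at h1

/-- A local division algebra of prime exponent `l` is split by the extensions of degree `l`. -/
theorem loc_spl {k Δ : Type} [NontriviallyNormedField k] [IsUltrametricDist k] [ProperSpace k]
    [CharZero k] [DivisionRing Δ] [Algebra k Δ] [FiniteDimensional k Δ] [Algebra.IsCentral k Δ]
    {q l : ℕ} (hq : finrank k Δ = q ^ 2) (h : TP l k Δ q) (hl : l.Prime) (hl3 : l ≤ 3) {p : k[X]}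
    (hp : Irr l p) {M : Type} [Field M] (φ : k →+* M) {α : M} (hα : p.eval₂ φ α = 0) :
    Spl Δ q φ := by
  let _ : NormedDivisionRing Δ := ndr k
  let _ : NormedAlgebra k Δ :=
    { (inferInstance : Algebra k Δ) with
      norm_smul_le := fun c x => by
        change nm k (c • x) ≤ ‖c‖ * nm k x
        rw [Algebra.smul_def, nm_mul, nm_algebraMap] }
  have hU : IsUltrametricDist Δ :=
    IsUltrametricDist.isUltrametricDist_of_forall_norm_add_le_max_norm
      (fun x y => nm_add_le_max k x y)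
  have : ProperSpace Δ := FiniteDimensional.proper k Δ
  obtain ⟨c, hc0, hc1⟩ := NormedField.exists_norm_lt_one k
  have hc : ‖algebraMap k Δ c‖ = ‖c‖ := nm_algebraMap k c
  have hcne : algebraMap k Δ c ≠ 0 := by
    rw [← norm_ne_zero_iff, hc]
    exact hc0.ne'
  obtain ⟨R⟩ := exists_frame (algebraMap k Δ c) hcne (by rw [hc]; exact hc1)
  obtain ⟨W, _, _, _, ⟨C⟩⟩ := exists_cyc (k := k) R
  have h4 : q = C.m := Nat.pow_left_injective (n := 2) (by norm_num) (hq.symm.trans (dims C).2)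
  subst h4
  rcases (Nat.dvd_prime hl).mp (dvd_of_tp C h) with h1 | h1
  · rw [h1] at hq ⊢
    exact spl_one hq φ
  have hirr := hp.irreducible hl hl3
  obtain ⟨x, hx⟩ : ∃ x : Δ, aeval x p = 0 := by
    obtain ⟨h2, h3, ⟨h4, h5⟩ | ⟨h4, a, rfl, h5⟩⟩ := hp
    · exact root_cyc C (h1 ▸ hl) (h1 ▸ hl3) h2 (h3.trans h1.symm) h4 h5
    · obtain ⟨x, hx⟩ := sqrt_cyc C (h1.trans h4) h5
      exact ⟨x, by rw [map_sub, map_pow, aeval_X, aeval_C, hx, sub_self]⟩
  have hmin : p = minpoly k x := minpoly.eq_of_irreducible_of_monic hirr hx hp.1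
  let _ : Algebra k M := φ.toAlgebra
  exact spl_of_root hq x (by rw [← hmin, hp.2.1, h1]) α (by rw [← hmin]; exact hα)

end Vale.Agent.P011N.Cl.K
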