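import Vale.Agent.P011N.Cl.K.Des

/-!
A semi-invariant multilinear form splits the tensor power of the algebra.
-/

open Module Equiv

namespace Vale.Agent.P011N.Cl.K

theorem TP.of_anti {l n : ℕ} {k A Y : Type} [Field k] [Ring A] [Algebra k A] [AddCommGroup Y]
    [Module k Y] [FiniteDimensional k Y] (r : Fin l → (A →ₗ[k] Module.End k Y))
    (h1 : ∀ i, r i 1 = 1) (hm : ∀ i a b, r i (a * b) = r i b * r i a)
    (hc : ∀ i j, i ≠ j → ∀ a b, r i a * r j b = r j b * r i a) (hY : finrank k Y = n ^ l) :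
    TP l k A n := by
  refine ⟨Module.Dual k Y, inferInstance, inferInstance, inferInstance, fun i =>
    AlgHom.ofLinearMap (Module.Dual.transpose.comp (r i)) ?_ fun a b => ?_,
    by rw [Subspace.dual_finrank_eq, hY], fun i j hij a b => ?_⟩
  · rw [LinearMap.comp_apply, h1]
    rfl
  · rw [LinearMap.comp_apply, hm]
    rfl
  · exact congrArg Module.Dual.transpose (hc j i hij.symm b a)

variable {F L : Type} [Field F] [NumberField F] [Field L] [Algebra L F] {Γ : Subgroup (Gl F)}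
  {W : Type} [AddCommGroup W] [Module F W] {Ψ : Subgroup (Perm W)} {l : ℕ}

/-- The multilinear forms. -/
abbrev ML (F W : Type) [Field F] [AddCommGroup W] [Module F W] (l : ℕ) : Type :=
  MultilinearMap F (fun _ : Fin l => W) F

/-- The form `z` is the transform of the form `y`. -/
def Tf (γ : Gl F) (ψ : Perm W) (ν : F) (y z : ML F W l) : Prop :=
  ∀ x : Fin l → W, z (ψ ∘ x) = ν * γ (y x)

theorem exists_tf {γ : Gl F} {ψ : Perm W} (h : Semi γ ψ) (ν : F) (y : ML F W l) :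
    ∃ z, Tf γ ψ ν y z := by
  refine ⟨⟨fun x => ν * γ (y (ψ.symm ∘ x)), fun x i a b => ?_, fun x i c a => ?_⟩, fun x => ?_⟩
  · rw [Function.comp_update, Function.comp_update, Function.comp_update, h.symm.add,
      y.map_update_add, map_add, mul_add]
  · rw [Function.comp_update, Function.comp_update, h.symm.smul, y.map_update_smul, smul_eq_mul,
      map_mul, smul_eq_mul]
    have h1 : γ (γ⁻¹ c) = c := γ.apply_symm_apply c
    rw [h1]
    ring
  · change ν * γ (y (ψ.symm ∘ ψ ∘ x)) = _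
    rw [← Function.comp_assoc, Equiv.symm_comp_self, Function.id_comp]

omit [NumberField F] in
theorem ml_ext (ψ : Perm W) {y z : ML F W l} (h : ∀ x : Fin l → W, y (ψ ∘ x) = z (ψ ∘ x)) :
    y = z := by
  ext x
  have h1 := h (ψ.symm ∘ x)
  rwa [← Function.comp_assoc, Equiv.self_comp_symm, Function.id_comp] at h1

theorem PD.actM (h : PD L Γ Ψ) {θ : ML F W l} (h0 : θ ≠ 0)
    (hθ : ∀ ψ ∈ Ψ, ∀ γ ∈ Γ, Semi γ ψ → ∃ ν, Tf γ ψ ν θ θ) : ∃ a : Gl F → ML F W l → ML F W l,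
    (∀ γ ∈ Γ, Semi γ (a γ)) ∧ (∀ γ ∈ Γ, ∀ δ ∈ Γ, ∀ x, a (γ * δ) x = a γ (a δ x)) ∧
    (∀ x, a 1 x = x) ∧ ∀ y, (∀ ψ ∈ Ψ, ∀ γ ∈ Γ, Semi γ ψ → ∀ ν, Tf γ ψ ν θ θ → Tf γ ψ ν y y) ↔
      ∀ γ ∈ Γ, a γ y = y := by
  obtain ⟨x0, hx0⟩ : ∃ x, θ x ≠ 0 := by
    by_contra hcon
    push Not at hcon
    exact h0 (MultilinearMap.ext hcon)
  have key : ∀ γ : Gl F, ∃ f : ML F W l → ML F W l, γ ∈ Γ → ∀ ψ ∈ Ψ, Semi γ ψ →
      ∀ ν, Tf γ ψ ν θ θ → ∀ y, Tf γ ψ ν y (f y) := by
    intro γ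
    by_cases hγ : γ ∈ Γ
    · obtain ⟨φ, h1, h2⟩ := h.ov.onto γ hγ
      obtain ⟨μ, hμ⟩ := hθ φ h1 γ hγ h2
      choose f hf using exists_tf (l := l) h2 μ
      refine ⟨f, fun _ ψ h4 h5 ν hν y x => ?_⟩
      obtain ⟨c, hc⟩ := h.rel h1 h4 h2 h5
      have h6 : ∀ y z : ML F W l, Tf γ φ μ y z → ∀ x : Fin l → W,
          z (ψ ∘ x) = μ * γ (∏ _ : Fin l, c) * γ (y x) := by
        intro y z hz x
        have h7 : ψ ∘ x = φ ∘ fun i => c • x i := funext fun i => hc (x i)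
        rw [h7, hz, y.map_smul_univ (fun _ => c), smul_eq_mul, map_mul, mul_assoc]
      have h7 := (hν x0).symm.trans (h6 θ θ hμ x0)
      rw [h6 y _ (hf y), mul_right_cancel₀ ((_root_.map_ne_zero γ).mpr hx0) h7]
    · exact ⟨id, fun h1 => absurd h1 hγ⟩
  choose a ha using key
  refine ⟨a, fun γ hγ t y z => ?_, fun γ hγ δ hδ y => ?_, fun y => ?_, fun y =>
    ⟨fun hy γ hγ => ?_, fun hy ψ hψ γ hγ h1 ν hν => ?_⟩⟩
  · obtain ⟨φ, h1, h2⟩ := h.ov.onto γ hγ
    obtain ⟨μ, hμ⟩ := hθ φ h1 γ hγ h2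
    refine ml_ext φ fun x => ?_
    rw [add_apply, smul_apply, ha γ hγ φ h1 h2 μ hμ,
      ha γ hγ φ h1 h2 μ hμ, ha γ hγ φ h1 h2 μ hμ, add_apply,
      smul_apply, smul_eq_mul, smul_eq_mul, map_add, map_mul]
    ring
  · obtain ⟨φ, h1, h2⟩ := h.ov.onto γ hγ
    obtain ⟨ψ, h3, h4⟩ := h.ov.onto δ hδ
    obtain ⟨μ, hμ⟩ := hθ φ h1 γ hγ h2
    obtain ⟨ν, hν⟩ := hθ ψ h3 δ hδ h4
    have h5 : ∀ y z u : ML F W l, Tf δ ψ ν y z → Tf γ φ μ z u →
        Tf (γ * δ) (φ * ψ) (μ * γ ν) y u := by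
      intro y z u hz hu x
      rw [Perm.coe_mul, Function.comp_assoc, hu, hz, map_mul, mul_assoc]
      rfl
    refine ml_ext (φ * ψ) fun x => ?_
    rw [ha _ (Γ.mul_mem hγ hδ) _ (Ψ.mul_mem h1 h3) (h2.mul h4) _ (h5 θ θ θ hν hμ),
      h5 y _ _ (ha δ hδ ψ h3 h4 ν hν y) (ha γ hγ φ h1 h2 μ hμ _)]
  · ext x
    exact (ha 1 Γ.one_mem 1 Ψ.one_mem semi_id 1 (fun x => (one_mul _).symm) y x).trans (one_mul _)
  · obtain ⟨φ, h1, h2⟩ := h.ov.onto γ hγ
    obtain ⟨μ, hμ⟩ := hθ φ h1 γ hγ h2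
    refine ml_ext φ fun x => ?_
    rw [ha γ hγ φ h1 h2 μ hμ, hy φ h1 γ hγ h2 μ hμ]
  · have h2 := ha γ hγ ψ hψ h1 ν hν y
    rwa [hy γ hγ] at h2

/-- The substitution of an endomorphism in one variable. -/
def sub (i : Fin l) (X : Module.End F W) (y : ML F W l) : ML F W l :=
  y.compLinearMap (Function.update (fun _ => LinearMap.id) i X)

omit [NumberField F] in
theorem sub_apply (i : Fin l) (X : Module.End F W) (y : ML F W l) (x : Fin l → W) :
    sub i X y x = y (Function.update x i (X (x i))) := by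
  rw [sub, MultilinearMap.compLinearMap_apply]
  congr 1
  funext j
  by_cases h : j = i
  · subst h
    simp
  · simp [Function.update_of_ne h]

variable [Module L W] [IsScalarTower L F W] [FiniteDimensional F W]

theorem PD.tp (h : PD L Γ Ψ) {θ : ML F W l} (h0 : θ ≠ 0)
    (hθ : ∀ ψ ∈ Ψ, ∀ γ ∈ Γ, Semi γ ψ → ∃ ν, Tf γ ψ ν θ θ) : TP l L h.E (finrank F W) := by
  obtain ⟨a, h1, h2, h3, h4⟩ := h.actM h0 hθ
  let Y : Submodule L (ML F W l) :=
    { carrier := {y | ∀ ψ ∈ Ψ, ∀ γ ∈ Γ, Semi γ ψ → ∀ ν, Tf γ ψ ν θ θ → Tf γ ψ ν y y}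
      add_mem' := fun {y z} hy hz ψ hψ γ hγ hs ν hν x => by
        rw [add_apply, add_apply, hy ψ hψ γ hγ hs ν hν,
          hz ψ hψ γ hγ hs ν hν, map_add, mul_add]
      zero_mem' := fun ψ hψ γ hγ hs ν hν x => by simp
      smul_mem' := fun c y hy ψ hψ γ hγ hs ν hν x => by
        rw [smul_apply, smul_apply, hy ψ hψ γ hγ hs ν hν,
          Algebra.smul_def, Algebra.smul_def, map_mul, (h.fix _).mpr ⟨c, rfl⟩ γ hγ]
        ring }
  have : IsScalarTower L F (ML F W l) := ⟨fun c t y => MultilinearMap.ext fun x =>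
    smul_assoc c t (y x)⟩
  obtain ⟨h5, h6⟩ := finrank_fixed h.fix a h1 h2 h3 Y h4
  have h7 : finrank F (ML F W l) = finrank F W ^ l := by
    rw [finrank_eq_card_basis (Basis.multilinearMap (fun _ : Fin l => finBasis F W)
      (Basis.singleton Unit F))]
    simp
  have hsub : ∀ i (X : h.E), ∀ y ∈ Y, sub i X y ∈ Y := by
    intro i X y hy ψ hψ γ hγ hs ν hν x
    rw [sub_apply, sub_apply, ← hy ψ hψ γ hγ hs ν hν, Function.comp_update, X.2 ψ hψ]
    rfl
  let r : Fin l → (h.E →ₗ[L] Module.End L Y) := fun i =>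
    { toFun := fun X =>
        { toFun := fun y => ⟨sub i X y, hsub i X y y.2⟩
          map_add' := fun y z => rfl
          map_smul' := fun c y => rfl }
      map_add' := fun X Z => by
        ext y x
        change sub i (X.1 + Z.1) y.1 x = sub i X.1 y.1 x + sub i Z.1 y.1 x
        rw [sub_apply, sub_apply, sub_apply, LinearMap.add_apply, MultilinearMap.map_update_add]
      map_smul' := fun c X => by
        ext y x
        change sub i (c • X.1) y.1 x = c • sub i X.1 y.1 x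
        rw [sub_apply, sub_apply, LinearMap.smul_apply, ← algebraMap_smul F c,
          MultilinearMap.map_update_smul, algebraMap_smul] }
  refine TP.of_anti (Y := Y) r (fun i => ?_) (fun i X Z => ?_) (fun i j hij X Z => ?_) (h5.trans h7)
  · ext y x
    change sub i 1 y.1 x = y.1 x
    rw [sub_apply, Module.End.one_apply, Function.update_eq_self]
  · ext y x
    change sub i (X.1 * Z.1) y.1 x = sub i Z.1 (sub i X.1 y.1) x
    rw [sub_apply, sub_apply, sub_apply, Function.update_idem, Function.update_self,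
      Module.End.mul_apply]
  · ext y x
    change sub i X.1 (sub j Z.1 y.1) x = sub j Z.1 (sub i X.1 y.1) x
    rw [sub_apply, sub_apply, sub_apply, sub_apply, Function.update_of_ne hij,
      Function.update_of_ne hij.symm, Function.update_comm hij]

end Vale.Agent.P011N.Cl.K
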