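import Vale.Agent.P011N.Cl.K.Loc
import Vale.Agent.P011.One.Frob

/-!
Real division algebras of odd exponent are split.
-/

open Module

namespace Vale.Agent.P011N.Cl.K

open Vale.Agent.P011.W

theorem Cy.not_three {k Δ W : Type} [Field k] [DivisionRing Δ] [Algebra k Δ] [Field W]
    [Algebra k W] (C : Cy k Δ W 2) [FiniteDimensional k Δ] [Algebra.IsCentral k Δ]
    (hW : finrank k W = 2) (hΔ : finrank k Δ = 2 ^ 2) : ¬ TP 3 k Δ 2 := by
  intro h
  obtain ⟨ϖ, ν, h1, h2⟩ := C.norm_eq hW hΔ h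
  have hϖ0 : ϖ ≠ 0 := by
    rintro rfl
    rw [map_zero] at h1
    exact pow_ne_zero _ C.π0 h1.symm
  have h3 : algebraMap k W ϖ ^ 3 = ν * C.σ ν := by
    rw [← map_pow, h2, Finset.prod_range_succ, Finset.prod_range_one]
    rfl
  have hc0 : algebraMap k W ϖ ≠ 0 := (_root_.map_ne_zero _).mpr hϖ0
  have hν : ν * C.σ ν ≠ 0 := h3 ▸ pow_ne_zero 3 hc0
  set w : W := algebraMap k W ϖ / ν with hw
  have h4 : w * C.σ w * algebraMap k W ϖ = 1 := by
    rw [hw, map_div₀, C.σ.commutes, div_mul_div_comm, div_mul_eq_mul_div, div_eq_one_iff_eq hν,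
      ← h3]
    ring
  have hw0 : w ≠ 0 := by
    rintro h5
    rw [h5, zero_mul, zero_mul] at h4
    exact zero_ne_one h4
  have h5 : (C.ι w * C.π) * (C.ι w * C.π) = 1 := by
    rw [mul_assoc, ← mul_assoc C.π, C.hσ, mul_assoc, ← mul_assoc, ← map_mul, ← pow_two, ← h1,
      ← C.ι.commutes, ← map_mul, h4, map_one]
  have h6 : (C.ι w * C.π) * C.ι C.ω = C.ι C.ω * (C.ι w * C.π) := by
    rcases mul_self_eq_one_iff.mp h5 with h7 | h7 <;> rw [h7] <;> simp
  rw [mul_assoc, C.hσ, ← mul_assoc, ← mul_assoc, ← map_mul, ← map_mul, mul_comm C.ω] at h6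
  have h7 := C.ι.toRingHom.injective (mul_right_cancel₀ C.π0 h6)
  exact one_ne_zero (C.inj 1 0 one_lt_two two_pos (mul_left_cancel₀ hw0 h7))

theorem real_spl {Δ : Type} [DivisionRing Δ] [Algebra ℝ Δ] [FiniteDimensional ℝ Δ]
    [Algebra.IsCentral ℝ Δ] {q : ℕ} (hq : finrank ℝ Δ = q ^ 2) (h : TP 3 ℝ Δ q) : q = 1 := by
  have h4 : finrank ℝ Δ ≤ 4 := Vale.Agent.P011.One.finrank_le_four
  rw [hq] at h4
  have hq0 : 0 < q := deg_pos hq
  have hq2 : q ≤ 2 := by
    by_contra hcon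
    push Not at hcon
    nlinarith
  by_contra hne
  obtain rfl : q = 2 := by omega
  obtain ⟨L, _, _, _, j, -, hL, -⟩ := exists_maxfield hq 0
  obtain ⟨e⟩ : Nonempty (L ≃ₐ[ℝ] ℂ) := by
    refine (Real.nonempty_algEquiv_or L).resolve_left fun ⟨e⟩ => ?_
    have h1 := e.toLinearEquiv.finrank_eq
    rw [hL, finrank_self] at h1
    omega
  let ι : ℂ →ₐ[ℝ] Δ := j.comp (e.symm : ℂ →ₐ[ℝ] L)
  have hI : ι Complex.I * ι Complex.I = -1 := by rw [← map_mul, Complex.I_mul_I, map_neg, map_one]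
  obtain ⟨y, hy⟩ : ∃ y : Δ, ι Complex.I * y - y * ι Complex.I ≠ 0 := by
    by_contra hcon
    push Not at hcon
    have h1 : ι Complex.I ∈ Subalgebra.center ℝ Δ := by
      rw [Subalgebra.mem_center_iff]
      exact fun y => (sub_eq_zero.mp (hcon y)).symm
    rw [Algebra.IsCentral.center_eq_bot] at h1
    obtain ⟨c, hc⟩ := Algebra.mem_bot.mp h1
    rw [← ι.commutes] at hc
    have h2 := congrArg Complex.im (ι.toRingHom.injective hc)
    simp at h2
  have hπ : (ι Complex.I * y - y * ι Complex.I) * ι Complex.I =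
      -(ι Complex.I * (ι Complex.I * y - y * ι Complex.I)) := by
    rw [sub_mul, mul_sub, mul_assoc y, hI, ← mul_assoc, ← mul_assoc, hI]
    simp
  refine Cy.not_three (k := ℝ) (W := ℂ) ⟨ι, Complex.conjAe, _, hy, fun w => ?_, Complex.I, ?_,
    fun w => ?_⟩ Complex.finrank_real_complex hq h
  · have h1 : w = algebraMap ℝ ℂ w.re + algebraMap ℝ ℂ w.im * Complex.I :=
      (Complex.re_add_im w).symm
    have h2 : (Complex.conjAe : ℂ →ₐ[ℝ] ℂ) Complex.I = -Complex.I := Complex.conj_I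
    generalize ι Complex.I * y - y * ι Complex.I = π at hπ ⊢
    rw [h1]
    simp only [map_add, map_mul, AlgHom.commutes, h2, map_neg]
    rw [mul_add, add_mul, ← Algebra.commutes, ← mul_assoc, ← Algebra.commutes, mul_assoc, hπ,
      mul_assoc, neg_mul]
  · have h2 : Complex.I ≠ (Complex.conjAe : ℂ →ₐ[ℝ] ℂ) Complex.I := by
      intro h3
      have h5 := congrArg Complex.im (h3.trans Complex.conj_I)
      norm_num at h5
    intro a b ha hb hab
    interval_cases a <;> interval_cases b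
    · rfl
    · exact absurd hab h2
    · exact absurd hab.symm h2
    · rfl
  · exact Complex.conj_conj w

end Vale.Agent.P011N.Cl.K
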